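import Mathlib

/-!
P156, part C6: the gap lemma for the tree recursion.

`q ≥ 1`, `E` real, `m` in the upper half plane with `q m² + E m + 1 = 0`.
`T m h = (h - m)/(h - m⁻¹)` is a bounded coordinate on the closed upper half plane in which the
one-branch recursion is multiplication by `m²`.
-/

namespace P156.Gap

open Complex Finset

/-- The bounded coordinate `(h - m)/(h - 1/m)`. -/
noncomputable def T (m h : ℂ) : ℂ := (h - m) / (h - m⁻¹)

/-- `Φ κ s = s/(s+κ)`. -/
noncomputable def Phi (κ s : ℂ) : ℂ := s / (s + κ)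

lemma T_eq_Phi (m h : ℂ) : T m h = Phi (m - m⁻¹) (h - m) := by
  unfold T Phi
  congr 1
  ring

/-- The defining relation of `m(E)`. -/
structure Root (q : ℕ) (E : ℝ) (m : ℂ) : Prop where
  eqn : (q : ℂ) * m ^ 2 + (E : ℂ) * m + 1 = 0
  im_pos : 0 < m.im

section basic

variable {q : ℕ} {E : ℝ} {m : ℂ}

lemma Root.ne_zero (h : Root q E m) : m ≠ 0 := by
  intro h0
  have := h.im_pos
  rw [h0] at this
  simp at this

lemma Root.qpos (h : Root q E m) : 0 < q := by
  rcases Nat.eq_zero_or_pos q with h0 | h0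
  · exfalso
    have h1 := h.eqn
    rw [h0] at h1
    have h2 := congrArg Complex.im h1
    have h3 := congrArg Complex.re h1
    simp at h2 h3
    rcases h2 with h2 | h2
    · rw [h2] at h3
      simp at h3
    · exact absurd h2 h.im_pos.ne'
  · exact h0

lemma Root.normSq (h : Root q E m) : (q : ℝ) * Complex.normSq m = 1 := by
  have h1 := h.eqn
  have him := h.im_pos
  have hre := congrArg Complex.re h1
  have him' := congrArg Complex.im h1
  simp [pow_two] at hre him'
  rw [Complex.normSq_apply]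
  have e1 : (q : ℝ) * (2 * m.re) + E = 0 := by
    have : m.im * ((q : ℝ) * (2 * m.re) + E) = 0 := by linarith
    rcases mul_eq_zero.mp this with h | h
    · exact absurd h him.ne'
    · exact h
  have e2 : E = -((q : ℝ) * (2 * m.re)) := by linarith
  rw [e2] at hre
  nlinarith

lemma Root.inv_eq (h : Root q E m) : m⁻¹ = (q : ℂ) * (starRingEnd ℂ) m := by
  have h1 := h.normSq
  have h2 : m * ((q : ℂ) * (starRingEnd ℂ) m) = 1 := by
    have : m * ((q : ℂ) * (starRingEnd ℂ) m) = (q : ℂ) * (m * (starRingEnd ℂ) m) := by ring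
    rw [this, Complex.mul_conj]
    exact_mod_cast h1
  exact inv_eq_of_mul_eq_one_right h2

lemma Root.inv_im (h : Root q E m) : (m⁻¹).im = -((q : ℝ) * m.im) := by
  rw [h.inv_eq]
  simp

lemma Root.norm_sq (h : Root q E m) : (q : ℝ) * ‖m‖ ^ 2 = 1 := by
  rw [← Complex.normSq_eq_norm_sq]
  exact h.normSq

lemma Root.norm_le_one (h : Root q E m) : ‖m‖ ≤ 1 := by
  have h1 := h.norm_sq
  have hq : (1 : ℝ) ≤ q := by exact_mod_cast h.qpos
  nlinarith [norm_nonneg m, sq_nonneg ‖m‖]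

lemma Root.im_le_one (h : Root q E m) : m.im ≤ 1 :=
  (Complex.abs_im_le_norm m |> le_trans (le_abs_self _)).trans h.norm_le_one

lemma Root.norm_inv (h : Root q E m) : ‖m⁻¹‖ ≤ q := by
  rw [h.inv_eq, norm_mul, RCLike.norm_conj]
  simp only [Complex.norm_natCast]
  have := h.norm_le_one
  have hq : (0 : ℝ) ≤ q := by positivity
  nlinarith

lemma Root.E_eq (h : Root q E m) : (E : ℂ) = -((q : ℂ) * m + m⁻¹) := by
  have h1 := h.eqn
  have h0 := h.ne_zero
  field_simp
  linear_combination h1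

/-- Denominators on the closed upper half plane are bounded below. -/
lemma Root.le_norm_sub_inv (h : Root q E m) {w : ℂ} :
    w.im + q * m.im ≤ ‖w - m⁻¹‖ := by
  have h1 : (w - m⁻¹).im = w.im + q * m.im := by
    rw [Complex.sub_im, h.inv_im]; ring
  rw [← h1]
  exact (le_abs_self _).trans (Complex.abs_im_le_norm _)

lemma Root.kappa_im (h : Root q E m) : (m - m⁻¹).im = (q + 1) * m.im := by
  rw [Complex.sub_im, h.inv_im]; ring

lemma Root.kappa_norm (h : Root q E m) : ‖m - m⁻¹‖ ≤ q + 1 := by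
  refine (norm_sub_le _ _).trans ?_
  have := h.norm_le_one
  have := h.norm_inv
  linarith

lemma Root.kappa_ne (h : Root q E m) : m - m⁻¹ ≠ 0 := by
  intro h0
  have h1 := h.kappa_im
  rw [h0] at h1
  have : 0 < ((q : ℝ) + 1) * m.im := by
    have := h.im_pos
    positivity
  simp at h1
  rcases h1 with h1 | h1
  · have : (0 : ℝ) < (q : ℝ) + 1 := by positivity
    exact absurd h1 this.ne'
  · exact absurd h1 h.im_pos.ne'

/-- `T` is bounded on the closed upper half plane. -/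
lemma Root.T_bound (h : Root q E m) {w : ℂ} (hw : 0 ≤ w.im) :
    ‖T m w‖ ≤ 1 + (q + 1) / m.im := by
  have hq : (1 : ℝ) ≤ q := by exact_mod_cast h.qpos
  have him := h.im_pos
  have hd : m.im ≤ ‖w - m⁻¹‖ := by
    refine le_trans ?_ h.le_norm_sub_inv
    nlinarith
  have hd0 : w - m⁻¹ ≠ 0 := by
    intro h0
    rw [h0, norm_zero] at hd
    linarith
  have e : T m w = 1 - (m - m⁻¹) / (w - m⁻¹) := by
    unfold T
    rw [eq_sub_iff_add_eq, ← add_div, div_eq_one_iff_eq hd0]
    ring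
  rw [e]
  refine (norm_sub_le _ _).trans ?_
  rw [norm_one, norm_div]
  gcongr
  exact h.kappa_norm

/-- `T` is Lipschitz on the closed upper half plane (with the gain of the denominators). -/
lemma Root.T_sub (h : Root q E m) {w w' : ℂ} (hw : 0 ≤ w.im) (hw' : 0 ≤ w'.im) :
    T m w - T m w' = (m - m⁻¹) * (w - w') / ((w - m⁻¹) * (w' - m⁻¹)) := by
  have him := h.im_pos
  have hq : (1 : ℝ) ≤ q := by exact_mod_cast h.qpos
  have hd0 : w - m⁻¹ ≠ 0 := by
    intro h0
    have hd := h.le_norm_sub_inv (w := w)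
    rw [h0, norm_zero] at hd
    nlinarith
  have hd0' : w' - m⁻¹ ≠ 0 := by
    intro h0
    have hd := h.le_norm_sub_inv (w := w')
    rw [h0, norm_zero] at hd
    nlinarith
  unfold T
  rw [div_sub_div _ _ hd0 hd0']
  congr 1
  ring

lemma Root.T_lip (h : Root q E m) {w w' : ℂ} (hw : 0 ≤ w.im) (hw' : 0 ≤ w'.im) :
    ‖T m w - T m w'‖ ≤ (q + 1) / m.im ^ 2 * ‖w - w'‖ := by
  have him := h.im_pos
  have hq : (1 : ℝ) ≤ q := by exact_mod_cast h.qpos
  have hd : m.im ≤ ‖w - m⁻¹‖ := by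
    refine le_trans ?_ h.le_norm_sub_inv
    nlinarith
  have hd' : m.im ≤ ‖w' - m⁻¹‖ := by
    refine le_trans ?_ h.le_norm_sub_inv
    nlinarith
  rw [h.T_sub hw hw', norm_div, norm_mul, norm_mul]
  have hp : 0 < ‖w - m⁻¹‖ := by linarith
  have hp' : 0 < ‖w' - m⁻¹‖ := by linarith
  rw [div_le_iff₀ (by positivity)]
  have h1 : m.im ^ 2 ≤ ‖w - m⁻¹‖ * ‖w' - m⁻¹‖ := by
    rw [pow_two]
    gcongr
  have h2 := h.kappa_norm
  calc ‖m - m⁻¹‖ * ‖w - w'‖ ≤ (q + 1) * ‖w - w'‖ := by gcongr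
    _ = (q + 1) / m.im ^ 2 * ‖w - w'‖ * m.im ^ 2 := by field_simp
    _ ≤ (q + 1) / m.im ^ 2 * ‖w - w'‖ * (‖w - m⁻¹‖ * ‖w' - m⁻¹‖) := by gcongr

end basic

end P156.Gap
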