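import Vale.Agent.P156.H992.Gap

/-!
P156, part C6: almost additivity of `Φ(s) = s/(s+κ)` along finite sums.
-/

namespace P156.Gap

open Complex Finset

lemma Phi_add {κ s₁ s₂ : ℂ} (h₁ : s₁ + κ ≠ 0) (h₂ : s₂ + κ ≠ 0)
    (h₁₂ : s₁ + s₂ + κ ≠ 0) :
    Phi κ (s₁ + s₂) - Phi κ s₁ - Phi κ s₂ =
      -(Phi κ s₁ * Phi κ s₂ * (1 + κ / (s₁ + s₂ + κ))) := by
  unfold Phi
  field_simp
  ring

lemma Phi_add_norm {κ s₁ s₂ : ℂ} {c : ℝ} (hc : 0 < c) (h₁ : s₁ + κ ≠ 0) (h₂ : s₂ + κ ≠ 0)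
    (h₁₂ : c ≤ ‖s₁ + s₂ + κ‖) :
    ‖Phi κ (s₁ + s₂) - Phi κ s₁ - Phi κ s₂‖ ≤ (1 + ‖κ‖ / c) * (‖Phi κ s₁‖ * ‖Phi κ s₂‖) := by
  have h0 : s₁ + s₂ + κ ≠ 0 := by
    intro h
    rw [h, norm_zero] at h₁₂
    linarith
  rw [Phi_add h₁ h₂ h0, norm_neg, norm_mul, norm_mul, mul_comm]
  have : ‖1 + κ / (s₁ + s₂ + κ)‖ ≤ 1 + ‖κ‖ / c := by
    refine (norm_add_le _ _).trans ?_
    rw [norm_one, norm_div]
    gcongr
  gcongr

lemma sum_sq_le_sq {α : Type*} {S : Finset α} {f : α → ℝ} (hf : ∀ k ∈ S, 0 ≤ f k) :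
    ∑ k ∈ S, f k ^ 2 ≤ (∑ k ∈ S, f k) ^ 2 := by
  rw [pow_two (∑ k ∈ S, f k), sum_mul]
  refine sum_le_sum fun k hk => ?_
  rw [pow_two]
  exact mul_le_mul_of_nonneg_left (single_le_sum hf hk) (hf k hk)

/-- The two estimates along a finite set of indices. -/
lemma Phi_sum {α : Type*} [DecidableEq α] {κ : ℂ} {s : α → ℂ} {c B : ℝ} (hc : 0 < c)
    (hB : 0 ≤ B) (S : Finset α)
    (hden : ∀ S' ⊆ S, c ≤ ‖∑ k ∈ S', s k + κ‖)
    (hs : ∀ k ∈ S, c ≤ ‖s k + κ‖)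
    (ht : ∀ k ∈ S, ‖Phi κ (s k)‖ ≤ B) :
    ‖Phi κ (∑ k ∈ S, s k)‖ ≤
        (1 + (1 + ‖κ‖ / c) * B) ^ S.card * ∑ k ∈ S, ‖Phi κ (s k)‖ ∧
    ‖Phi κ (∑ k ∈ S, s k) - ∑ k ∈ S, Phi κ (s k)‖ ≤
        (1 + ‖κ‖ / c) * (1 + (1 + ‖κ‖ / c) * B) ^ S.card *
          ((∑ k ∈ S, ‖Phi κ (s k)‖) ^ 2 - ∑ k ∈ S, ‖Phi κ (s k)‖ ^ 2) := by
  set C₁ : ℝ := 1 + ‖κ‖ / c with hC₁
  set A : ℝ := 1 + C₁ * B with hA
  have hC₁1 : 1 ≤ C₁ := by
    have : 0 ≤ ‖κ‖ / c := by positivity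
    linarith
  have hA1 : 1 ≤ A := by
    have : 0 ≤ C₁ * B := by positivity
    linarith
  induction S using Finset.induction_on with
  | empty => simp [Phi]
  | insert a S ha ih =>
    have ih' := ih (fun S' hS' => hden S' (hS'.trans (subset_insert _ _)))
      (fun k hk => hs k (mem_insert_of_mem hk)) (fun k hk => ht k (mem_insert_of_mem hk))
    obtain ⟨i1, i2⟩ := ih'
    rw [sum_insert ha, sum_insert ha, sum_insert ha, sum_insert ha, card_insert_of_notMem ha]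
    set Ss := ∑ k ∈ S, s k with hSs
    set St := ∑ k ∈ S, ‖Phi κ (s k)‖ with hSt
    set St2 := ∑ k ∈ S, ‖Phi κ (s k)‖ ^ 2 with hSt2
    have hSt0 : 0 ≤ St := sum_nonneg fun k _ => norm_nonneg _
    have ta0 : 0 ≤ ‖Phi κ (s a)‖ := norm_nonneg _
    have taB : ‖Phi κ (s a)‖ ≤ B := ht a (mem_insert_self _ _)
    have hd1 : s a + κ ≠ 0 := by
      intro h
      have := hs a (mem_insert_self _ _)
      rw [h, norm_zero] at this
      linarith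
    have hd2 : Ss + κ ≠ 0 := by
      intro h
      have := hden S (subset_insert _ _)
      rw [← hSs, h, norm_zero] at this
      linarith
    have hd12 : c ≤ ‖s a + Ss + κ‖ := by
      have := hden (insert a S) (Subset.refl _)
      rwa [sum_insert ha] at this
    have hadd := Phi_add_norm hc hd1 hd2 hd12
    rw [← hC₁] at hadd
    have hP : 0 ≤ St ^ 2 - St2 := by
      have : St2 ≤ St ^ 2 := by
        rw [hSt2, hSt]
        exact sum_sq_le_sq (fun k _ => norm_nonneg _)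
      linarith
    have hAn : (1 : ℝ) ≤ A ^ S.card := one_le_pow₀ hA1
    have hAn0 : (0 : ℝ) ≤ A ^ S.card := by linarith
    constructor
    · have h1 : ‖Phi κ (s a + Ss)‖ ≤
          C₁ * (‖Phi κ (s a)‖ * ‖Phi κ Ss‖) + ‖Phi κ (s a)‖ + ‖Phi κ Ss‖ := by
        have : Phi κ (s a + Ss) = (Phi κ (s a + Ss) - Phi κ (s a) - Phi κ Ss) + Phi κ (s a) +
          Phi κ Ss := by ring
        rw [this]
        refine (norm_add_le _ _).trans ?_
        gcongr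
        refine (norm_add_le _ _).trans ?_
        gcongr
      refine h1.trans ?_
      have h2 : C₁ * (‖Phi κ (s a)‖ * ‖Phi κ Ss‖) ≤ C₁ * (B * ‖Phi κ Ss‖) := by
        gcongr
      calc C₁ * (‖Phi κ (s a)‖ * ‖Phi κ Ss‖) + ‖Phi κ (s a)‖ + ‖Phi κ Ss‖
          ≤ C₁ * (B * ‖Phi κ Ss‖) + ‖Phi κ (s a)‖ + ‖Phi κ Ss‖ := by linarith
        _ = A * ‖Phi κ Ss‖ + ‖Phi κ (s a)‖ := by rw [hA]; ring
        _ ≤ A * (A ^ S.card * St) + ‖Phi κ (s a)‖ := by gcongr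
        _ ≤ A * (A ^ S.card * St) + A ^ (S.card + 1) * ‖Phi κ (s a)‖ := by
            have : (1 : ℝ) ≤ A ^ (S.card + 1) := one_le_pow₀ hA1
            nlinarith
        _ = A ^ (S.card + 1) * (‖Phi κ (s a)‖ + St) := by ring
    · have h1 : Phi κ (s a + Ss) - (Phi κ (s a) + ∑ k ∈ S, Phi κ (s k)) =
          (Phi κ (s a + Ss) - Phi κ (s a) - Phi κ Ss) +
            (Phi κ Ss - ∑ k ∈ S, Phi κ (s k)) := by ring
      rw [h1]
      refine (norm_add_le _ _).trans ?_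
      calc ‖Phi κ (s a + Ss) - Phi κ (s a) - Phi κ Ss‖ + ‖Phi κ Ss - ∑ k ∈ S, Phi κ (s k)‖
          ≤ C₁ * (‖Phi κ (s a)‖ * ‖Phi κ Ss‖) + C₁ * A ^ S.card * (St ^ 2 - St2) :=
            add_le_add hadd i2
        _ ≤ C₁ * (‖Phi κ (s a)‖ * (A ^ S.card * St)) + C₁ * A ^ S.card * (St ^ 2 - St2) := by
            gcongr
        _ = C₁ * A ^ S.card * (‖Phi κ (s a)‖ * St + (St ^ 2 - St2)) := by ring
        _ ≤ C₁ * A ^ (S.card + 1) * ((‖Phi κ (s a)‖ + St) ^ 2 -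
              (‖Phi κ (s a)‖ ^ 2 + St2)) := by
            have e : (‖Phi κ (s a)‖ + St) ^ 2 - (‖Phi κ (s a)‖ ^ 2 + St2) =
              2 * (‖Phi κ (s a)‖ * St) + (St ^ 2 - St2) := by ring
            rw [e]
            have hp : 0 ≤ ‖Phi κ (s a)‖ * St := mul_nonneg ta0 hSt0
            have hA' : A ^ S.card ≤ A ^ (S.card + 1) := pow_le_pow_right₀ hA1 (by omega)
            have h3 : C₁ * A ^ S.card ≤ C₁ * A ^ (S.card + 1) := by gcongr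
            have h4 : 0 ≤ C₁ * A ^ S.card := by positivity
            have h5 : ‖Phi κ (s a)‖ * St + (St ^ 2 - St2) ≤
                2 * (‖Phi κ (s a)‖ * St) + (St ^ 2 - St2) := by linarith
            exact mul_le_mul h3 h5 (by linarith) (by linarith)

end P156.Gap
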