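import Vale.Agent.P156.H992.Scales
import Vale.Agent.P156.R2.Defs

/-!
P156: bridge between the abstract lemmas of block C6/C9 and the common definitions.
-/

namespace P156.Gap

open Complex Finset Vale.Agent.P156

lemma mE_im {d : ℕ} (E : ℝ) :
    (mE d E).im = Real.sqrt (4 * ((d : ℝ) - 1) - E ^ 2) / (2 * ((d : ℝ) - 1)) := by
  unfold mE
  have e : (-(E : ℂ) + (Real.sqrt (4 * ((d : ℝ) - 1) - E ^ 2) : ℂ) * Complex.I) /
      (2 * ((d : ℂ) - 1)) =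
      (((2 * ((d : ℝ) - 1))⁻¹ : ℝ) : ℂ) *
        (-(E : ℂ) + (Real.sqrt (4 * ((d : ℝ) - 1) - E ^ 2) : ℂ) * Complex.I) := by
    push_cast
    rw [div_eq_mul_inv, mul_comm]
  rw [e, Complex.im_ofReal_mul]
  simp only [Complex.add_im, Complex.neg_im, Complex.ofReal_im, Complex.mul_im,
    Complex.ofReal_re, Complex.I_im, Complex.I_re]
  rw [div_eq_mul_inv, mul_comm]
  ring

/-- The explicit root. -/
lemma root_mE {d : ℕ} (hd : 2 ≤ d) {E : ℝ} (hE : |E| < 2 * Real.sqrt ((d : ℝ) - 1)) :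
    Root (d - 1) E (mE d E) := by
  have hd' : (2 : ℝ) ≤ d := by exact_mod_cast hd
  have hq0 : (0 : ℝ) < (d : ℝ) - 1 := by linarith
  have hcast : ((d - 1 : ℕ) : ℂ) = (d : ℂ) - 1 := by
    rw [Nat.cast_sub (by omega)]; simp
  have hE2 : E ^ 2 < 4 * ((d : ℝ) - 1) := by
    have h1 : |E| ^ 2 < (2 * Real.sqrt ((d : ℝ) - 1)) ^ 2 := by
      gcongr
    rw [sq_abs, mul_pow, Real.sq_sqrt hq0.le] at h1
    linarith
  have hpos : 0 < 4 * ((d : ℝ) - 1) - E ^ 2 := by linarith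
  have hs : (Real.sqrt (4 * ((d : ℝ) - 1) - E ^ 2)) ^ 2 = 4 * ((d : ℝ) - 1) - E ^ 2 :=
    Real.sq_sqrt hpos.le
  have hs0 : 0 < Real.sqrt (4 * ((d : ℝ) - 1) - E ^ 2) := Real.sqrt_pos.mpr hpos
  have hdc : ((d : ℂ) - 1) ≠ 0 := by
    have : ((d : ℂ) - 1) = (((d : ℝ) - 1 : ℝ) : ℂ) := by push_cast; rfl
    rw [this]
    exact_mod_cast hq0.ne'
  constructor
  · rw [hcast]
    unfold mE
    set s : ℝ := Real.sqrt (4 * ((d : ℝ) - 1) - E ^ 2) with hsdef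
    have hsC : (s : ℂ) ^ 2 = 4 * ((d : ℂ) - 1) - (E : ℂ) ^ 2 := by
      have := congrArg (fun x : ℝ => (x : ℂ)) hs
      push_cast at this
      exact this
    field_simp
    have hI : Complex.I ^ 2 = -1 := Complex.I_sq
    linear_combination (-1 : ℂ) * hsC + (s : ℂ) ^ 2 * hI
  · rw [mE_im]
    positivity

/-- Uniform lower bound of `Im m(E)` on a compact bulk interval. -/
lemma mE_im_lower {d : ℕ} (hd : 2 ≤ d) {a b : ℝ} (ha : -(2 * Real.sqrt ((d : ℝ) - 1)) < a)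
    (hb : b < 2 * Real.sqrt ((d : ℝ) - 1)) :
    ∃ c > 0, ∀ E ∈ Set.Icc a b, c ≤ (mE d E).im := by
  have hd' : (2 : ℝ) ≤ d := by exact_mod_cast hd
  have hq0 : (0 : ℝ) < (d : ℝ) - 1 := by linarith
  have hsq : (2 * Real.sqrt ((d : ℝ) - 1)) ^ 2 = 4 * ((d : ℝ) - 1) := by
    rw [mul_pow, Real.sq_sqrt hq0.le]; norm_num
  rcases lt_or_ge b a with hab | hab
  · exact ⟨1, one_pos, fun E hE => absurd (hE.1.trans hE.2) (not_le.mpr hab)⟩
  set M : ℝ := max (a ^ 2) (b ^ 2) with hM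
  have hMlt : M < 4 * ((d : ℝ) - 1) := by
    rw [hM, max_lt_iff, ← hsq]
    constructor
    · nlinarith [Real.sqrt_nonneg ((d : ℝ) - 1)]
    · nlinarith [Real.sqrt_nonneg ((d : ℝ) - 1)]
  refine ⟨Real.sqrt (4 * ((d : ℝ) - 1) - M) / (2 * ((d : ℝ) - 1)), ?_, ?_⟩
  · have : 0 < Real.sqrt (4 * ((d : ℝ) - 1) - M) := Real.sqrt_pos.mpr (by linarith)
    positivity
  · intro E hE
    rw [mE_im]
    have hEM : E ^ 2 ≤ M := by
      rw [hM]
      rcases le_total 0 E with h0 | h0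
      · exact le_max_of_le_right (by nlinarith [hE.2])
      · exact le_max_of_le_left (by nlinarith [hE.1])
    gcongr

/-- `T ∘ (-1/·)` is Lipschitz on the upper half plane. -/
lemma Root.T_lip_inv {q : ℕ} {E : ℝ} {m : ℂ} (hr : Root q E m) {c : ℝ} (hc : 0 < c)
    (hcm : c ≤ m.im) {g g' : ℂ} (hg : 0 < g.im) (hg' : 0 < g'.im) :
    ‖T m (-1 / g) - T m (-1 / g')‖ ≤ (q + 1) / c ^ 2 * ‖g - g'‖ := by
  have hg0 : g ≠ 0 := by intro h; rw [h] at hg; simp at hg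
  have hg0' : g' ≠ 0 := by intro h; rw [h] at hg'; simp at hg'
  rw [hr.T_rec hg0, hr.T_rec hg0']
  have h1 : ∀ {w : ℂ}, 0 < w.im → c ≤ ‖w + m‖ := by
    intro w hw
    have h2 : (w + m).im = w.im + m.im := by simp
    have h3 : c ≤ (w + m).im := by rw [h2]; linarith
    exact h3.trans ((le_abs_self _).trans (Complex.abs_im_le_norm _))
  have d1 := h1 hg
  have d2 := h1 hg'
  have d1' : g + m ≠ 0 := by intro h; rw [h, norm_zero] at d1; linarith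
  have d2' : g' + m ≠ 0 := by intro h; rw [h, norm_zero] at d2; linarith
  have e : m ^ 2 * ((g + m⁻¹) / (g + m)) - m ^ 2 * ((g' + m⁻¹) / (g' + m)) =
      m ^ 2 * ((m - m⁻¹) * (g - g') / ((g + m) * (g' + m))) := by
    rw [← mul_sub, div_sub_div _ _ d1' d2']
    congr 2
    ring
  rw [e, norm_mul, norm_pow, norm_div, norm_mul, norm_mul]
  have hm1 : ‖m‖ ^ 2 ≤ 1 := by
    have := hr.norm_le_one
    have := norm_nonneg m
    nlinarith
  have hden : c ^ 2 ≤ ‖g + m‖ * ‖g' + m‖ := by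
    rw [pow_two]; gcongr
  have hk := hr.kappa_norm
  calc ‖m‖ ^ 2 * (‖m - m⁻¹‖ * ‖g - g'‖ / (‖g + m‖ * ‖g' + m‖))
      ≤ 1 * ((q + 1) * ‖g - g'‖ / c ^ 2) := by gcongr
    _ = (q + 1) / c ^ 2 * ‖g - g'‖ := by ring

/-- `T` controls the distance to `m`. -/
lemma Root.dist_le {q : ℕ} {E : ℝ} {m : ℂ} (hr : Root q E m) {w : ℂ} (hw : 0 ≤ w.im)
    (hT : ‖T m w‖ ≤ 1 / 2) : ‖w - m‖ ≤ 2 * (q + 1) * ‖T m w‖ := by
  have hq : (1 : ℝ) ≤ q := by exact_mod_cast hr.qpos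
  have him := hr.im_pos
  have hd : m.im ≤ ‖w - m⁻¹‖ := by
    refine le_trans ?_ hr.le_norm_sub_inv
    nlinarith
  have hd0 : w - m⁻¹ ≠ 0 := by
    intro h0
    rw [h0, norm_zero] at hd
    linarith
  have e1 : w - m = T m w * (w - m⁻¹) := by
    unfold T
    rw [div_mul_cancel₀ _ hd0]
  have e2 : w - m⁻¹ = (w - m) + (m - m⁻¹) := by ring
  have h1 : ‖w - m‖ ≤ ‖T m w‖ * (‖w - m‖ + (q + 1)) := by
    calc ‖w - m‖ = ‖T m w * (w - m⁻¹)‖ := by rw [← e1]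
      _ = ‖T m w‖ * ‖w - m⁻¹‖ := norm_mul _ _
      _ ≤ ‖T m w‖ * (‖w - m‖ + (q + 1)) := by
          gcongr
          rw [e2]
          exact (norm_add_le _ _).trans (add_le_add le_rfl hr.kappa_norm)
  have h2 : ‖T m w‖ * ‖w - m‖ ≤ 1 / 2 * ‖w - m‖ := by gcongr
  nlinarith

/-- The Pick bound at scales `η' ≤ η ≤ (1 + δ) η'`. -/
lemma pick_of_ratio {w w' : ℂ} {η η' δ : ℝ} (hη' : 0 < η') (h1 : η' ≤ η)
    (h2 : η ≤ (1 + δ) * η') (hw : 0 ≤ w.im) (hw' : 0 ≤ w'.im)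
    (hp : ‖w - w'‖ ^ 2 ≤ (η - η') ^ 2 / (η * η') * (w.im * w'.im)) :
    ‖w - w'‖ ^ 2 ≤ δ ^ 2 * (w.im * w'.im) := by
  refine hp.trans ?_
  have hη : 0 < η := lt_of_lt_of_le hη' h1
  have h3 : (η - η') ^ 2 / (η * η') ≤ δ ^ 2 := by
    rw [div_le_iff₀ (by positivity)]
    have h4 : η - η' ≤ δ * η' := by linarith
    have h5 : 0 ≤ η - η' := by linarith
    have h6 : (η - η') ^ 2 ≤ (δ * η') ^ 2 := by gcongr
    have h7 : η' * η' ≤ η * η' := by gcongr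
    nlinarith [sq_nonneg δ]
  gcongr

end P156.Gap
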