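import Vale.Agent.P156.H992.Bridge
import Vale.Agent.P156.H520.CDefs

/-!
P156: output of C6/C9 in the common format of part C (`dfctW`, `TestF`).
-/

namespace P156.Gap

open Complex Finset Vale.Agent.P156

/-- Normalisation of the three test functions. -/
noncomputable def NT (q : ℕ) (c : ℝ) : ℝ :=
  BT q c ^ 2 + BT q c + (2 * BT q c + 1) * ((q + 1) / c ^ 2 + (q + 1) / c ^ 2)

lemma NT_pos {q : ℕ} {c : ℝ} (hc : 0 < c) : 0 < NT q c := by
  unfold NT
  have := BT_pos (q := q) hc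
  positivity

/-- The three test functions `‖T‖²`, `Re T`, `Im T`. -/
noncomputable def TF (k : Fin 3) (m h : ℂ) : ℝ :=
  match k with
  | 0 => ‖T m h‖ ^ 2
  | 1 => (T m h).re
  | 2 => (T m h).im

/-- The three test functions, normalised, as functions of the energy. -/
noncomputable def TE (d : ℕ) (c a b : ℝ) (k : Fin 3) (E : ℝ) (h : ℂ) : ℝ :=
  if E ∈ Set.Icc a b then TF k (mE d E) h / NT (d - 1) c else 0

lemma TF_bound {q : ℕ} {E : ℝ} {m : ℂ} (hr : Root q E m) {c : ℝ} (hc : 0 < c)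
    (hcm : c ≤ m.im) (k : Fin 3) {h : ℂ} (hh : 0 ≤ h.im) : |TF k m h| ≤ NT q c := by
  have hB := BT_pos (q := q) hc
  have h1 := hr.T_le_BT hc hcm hh
  have h2 : 0 ≤ (2 * BT q c + 1) * (((q : ℝ) + 1) / c ^ 2 + (q + 1) / c ^ 2) := by positivity
  unfold NT
  fin_cases k
  · have h3 : ‖T m h‖ ^ 2 ≤ BT q c ^ 2 := by gcongr
    show |‖T m h‖ ^ 2| ≤ _
    rw [abs_of_nonneg (by positivity)]
    linarith
  · show |(T m h).re| ≤ _
    have h3 := (Complex.abs_re_le_norm (T m h)).trans h1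
    have : 0 ≤ BT q c ^ 2 := by positivity
    linarith
  · show |(T m h).im| ≤ _
    have h3 := (Complex.abs_im_le_norm (T m h)).trans h1
    have : 0 ≤ BT q c ^ 2 := by positivity
    linarith

lemma TF_diff {q : ℕ} {E : ℝ} {m : ℂ} (hr : Root q E m) {c : ℝ} (hc : 0 < c)
    (hcm : c ≤ m.im) (k : Fin 3) {h h' : ℂ} (hh : 0 ≤ h.im) (hh' : 0 ≤ h'.im) :
    |TF k m h - TF k m h'| ≤ (2 * BT q c + 1) * ‖T m h - T m h'‖ := by
  have hB := BT_pos (q := q) hc
  have h1 := hr.T_le_BT hc hcm hh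
  have h2 := hr.T_le_BT hc hcm hh'
  have hn : 0 ≤ ‖T m h - T m h'‖ := norm_nonneg _
  fin_cases k
  · show |‖T m h‖ ^ 2 - ‖T m h'‖ ^ 2| ≤ _
    have e : ‖T m h‖ ^ 2 - ‖T m h'‖ ^ 2 =
      (‖T m h‖ + ‖T m h'‖) * (‖T m h‖ - ‖T m h'‖) := by ring
    rw [e, abs_mul, abs_of_nonneg (by positivity)]
    have h4 : |‖T m h‖ - ‖T m h'‖| ≤ ‖T m h - T m h'‖ := abs_norm_sub_norm_le _ _
    calc (‖T m h‖ + ‖T m h'‖) * |‖T m h‖ - ‖T m h'‖|
        ≤ (BT q c + BT q c) * ‖T m h - T m h'‖ :=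
          mul_le_mul (add_le_add h1 h2) h4 (abs_nonneg _) (by linarith)
      _ ≤ (2 * BT q c + 1) * ‖T m h - T m h'‖ := by nlinarith
  · show |(T m h).re - (T m h').re| ≤ _
    rw [← Complex.sub_re]
    refine (Complex.abs_re_le_norm _).trans ?_
    nlinarith
  · show |(T m h).im - (T m h').im| ≤ _
    rw [← Complex.sub_im]
    refine (Complex.abs_im_le_norm _).trans ?_
    nlinarith

/-- The normalised test functions lie in the class of C5. -/
theorem TE_testF {d : ℕ} (hd : 2 ≤ d) {a b c : ℝ} (ha : -(2 * Real.sqrt ((d : ℝ) - 1)) < a)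
    (hb : b < 2 * Real.sqrt ((d : ℝ) - 1)) (hc : 0 < c)
    (hcm : ∀ E ∈ Set.Icc a b, c ≤ (mE d E).im) (k : Fin 3) (E : ℝ) :
    TestF 1 1 (TE d c a b k E) := by
  by_cases hE : E ∈ Set.Icc a b
  · have hr : Root (d - 1) E (mE d E) := root_mE hd (abs_lt.mpr
      ⟨lt_of_lt_of_le ha hE.1, lt_of_le_of_lt hE.2 hb⟩)
    have hN := NT_pos (q := d - 1) hc
    have hB := BT_pos (q := d - 1) hc
    have hcm' := hcm E hE
    refine ⟨?_, ?_⟩
    · intro h hh
      simp only [TE, hE, if_true]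
      rw [abs_div, abs_of_pos hN, div_le_one hN]
      exact TF_bound hr hc hcm' k hh.le
    · intro h h' hh hh'
      have hLN : (2 * BT (d - 1) c + 1) * ((((d - 1 : ℕ) : ℝ) + 1) / c ^ 2) ≤ NT (d - 1) c := by
        unfold NT
        have h1 : 0 ≤ (2 * BT (d - 1) c + 1) * ((((d - 1 : ℕ) : ℝ) + 1) / c ^ 2) := by positivity
        have h2 : 0 ≤ BT (d - 1) c ^ 2 := by positivity
        linarith
      simp only [TE, hE, if_true]
      rw [← sub_div, ← sub_div, abs_div, abs_div, abs_of_pos hN, div_le_iff₀ hN, div_le_iff₀ hN]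
      constructor
      · refine (TF_diff hr hc hcm' k hh.le hh'.le).trans ?_
        have h1 := hr.T_lip hh.le hh'.le
        have h2 : (((d - 1 : ℕ) : ℝ) + 1) / (mE d E).im ^ 2 ≤ (((d - 1 : ℕ) : ℝ) + 1) / c ^ 2 := by
          gcongr
        calc (2 * BT (d - 1) c + 1) * ‖T (mE d E) h - T (mE d E) h'‖
            ≤ (2 * BT (d - 1) c + 1) * ((((d - 1 : ℕ) : ℝ) + 1) / c ^ 2 * ‖h - h'‖) := by
              gcongr
              exact h1.trans (by gcongr)
          _ = ((2 * BT (d - 1) c + 1) * ((((d - 1 : ℕ) : ℝ) + 1) / c ^ 2)) * ‖h - h'‖ := by ring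
          _ ≤ NT (d - 1) c * ‖h - h'‖ := by gcongr
          _ = 1 * ‖h - h'‖ * NT (d - 1) c := by ring
      · have him : ∀ w : ℂ, 0 < w.im → 0 ≤ (-1 / w).im := by
          intro w hw
          rw [neg_div, Complex.neg_im, one_div, Complex.inv_im, neg_div, neg_neg]
          exact div_nonneg hw.le (Complex.normSq_nonneg _)
        refine (TF_diff hr hc hcm' k (him h hh) (him h' hh')).trans ?_
        have h1 := hr.T_lip_inv hc hcm' hh hh'
        calc (2 * BT (d - 1) c + 1) * ‖T (mE d E) (-1 / h) - T (mE d E) (-1 / h')‖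
            ≤ (2 * BT (d - 1) c + 1) * ((((d - 1 : ℕ) : ℝ) + 1) / c ^ 2 * ‖h - h'‖) := by
              gcongr
          _ = ((2 * BT (d - 1) c + 1) * ((((d - 1 : ℕ) : ℝ) + 1) / c ^ 2)) * ‖h - h'‖ := by ring
          _ ≤ NT (d - 1) c * ‖h - h'‖ := by gcongr
          _ = 1 * ‖h - h'‖ * NT (d - 1) c := by ring
  · refine ⟨fun h _ => ?_, fun h h' _ _ => ?_⟩
    · simp [TE, hE]
    · simp [TE, hE]

lemma measurable_mE (d : ℕ) : Measurable (mE d) := by
  unfold mE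
  fun_prop

/-- Joint measurability of the test functions. -/
theorem TE_measurable (d : ℕ) (c a b : ℝ) (k : Fin 3) :
    Measurable (Function.uncurry (TE d c a b k)) := by
  have hT : Measurable fun x : ℝ × ℂ => T (mE d x.1) x.2 := by
    unfold T
    have h1 : Measurable fun x : ℝ × ℂ => mE d x.1 := (measurable_mE d).comp measurable_fst
    fun_prop
  have hF : Measurable fun x : ℝ × ℂ => TF k (mE d x.1) x.2 / NT (d - 1) c := by
    refine Measurable.div_const ?_ _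
    fin_cases k
    · exact hT.norm.pow_const 2
    · exact Complex.measurable_re.comp hT
    · exact Complex.measurable_im.comp hT
  have hS : MeasurableSet {x : ℝ × ℂ | x.1 ∈ Set.Icc a b} :=
    measurable_fst measurableSet_Icc
  have : Function.uncurry (TE d c a b k) = fun x : ℝ × ℂ =>
      if x.1 ∈ Set.Icc a b then TF k (mE d x.1) x.2 / NT (d - 1) c else 0 := by
    funext x
    rfl
  rw [this]
  exact Measurable.ite hS hF measurable_const

section output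

variable {ι : Type*} [Fintype ι] {d : ℕ} {p : ι → ℝ}

lemma vv_sub_eq {a b c E η : ℝ} (hc : 0 < c) (hE : E ∈ Set.Icc a b) (h : ι → ℂ) :
    vv p (mE d E) h - vv' (d - 1) p (mE d E) E η h =
      NT (d - 1) c * dfctW (d - 1) p h ((E : ℂ) + η * I) (TE d c a b 0 E) := by
  have hN := (NT_pos (q := d - 1) hc).ne'
  have e : ∀ w : ℂ, TE d c a b 0 E w = (NT (d - 1) c)⁻¹ * ‖T (mE d E) w‖ ^ 2 := by
    intro w
    simp only [TE, hE, if_true, TF]
    ring
  unfold dfctW wavg wavgq vv vv' Av recf pw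
  simp only [e]
  rw [mul_sub, mul_sum, mul_sum]
  congr 1
  · refine sum_congr rfl fun i _ => ?_
    field_simp
  · refine sum_congr rfl fun t _ => ?_
    field_simp

lemma mu_sub_re {a b c E η : ℝ} (hc : 0 < c) (hE : E ∈ Set.Icc a b) (h : ι → ℂ) :
    (mu p (mE d E) h - mu' (d - 1) p (mE d E) E η h).re =
      NT (d - 1) c * dfctW (d - 1) p h ((E : ℂ) + η * I) (TE d c a b 1 E) := by
  have hN := (NT_pos (q := d - 1) hc).ne'
  have e : ∀ w : ℂ, TE d c a b 1 E w = (NT (d - 1) c)⁻¹ * (T (mE d E) w).re := by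
    intro w
    simp only [TE, hE, if_true, TF]
    ring
  unfold dfctW wavg wavgq mu mu' AvC recf pw
  simp only [e]
  rw [Complex.sub_re, Complex.re_sum, Complex.re_sum, mul_sub, mul_sum, mul_sum]
  congr 1
  · refine sum_congr rfl fun i _ => ?_
    rw [Complex.re_ofReal_mul]
    field_simp
  · refine sum_congr rfl fun t _ => ?_
    rw [Complex.re_ofReal_mul]
    field_simp

lemma mu_sub_im {a b c E η : ℝ} (hc : 0 < c) (hE : E ∈ Set.Icc a b) (h : ι → ℂ) :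
    (mu p (mE d E) h - mu' (d - 1) p (mE d E) E η h).im =
      NT (d - 1) c * dfctW (d - 1) p h ((E : ℂ) + η * I) (TE d c a b 2 E) := by
  have hN := (NT_pos (q := d - 1) hc).ne'
  have e : ∀ w : ℂ, TE d c a b 2 E w = (NT (d - 1) c)⁻¹ * (T (mE d E) w).im := by
    intro w
    simp only [TE, hE, if_true, TF]
    ring
  unfold dfctW wavg wavgq mu mu' AvC recf pw
  simp only [e]
  rw [Complex.sub_im, Complex.im_sum, Complex.im_sum, mul_sub, mul_sum, mul_sum]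
  congr 1
  · refine sum_congr rfl fun i _ => ?_
    rw [Complex.im_ofReal_mul]
    field_simp
  · refine sum_congr rfl fun t _ => ?_
    rw [Complex.im_ofReal_mul]
    field_simp

lemma mu_sub_sq {a b c E η : ℝ} (hc : 0 < c) (hE : E ∈ Set.Icc a b) (h : ι → ℂ) :
    ‖mu p (mE d E) h - mu' (d - 1) p (mE d E) E η h‖ ^ 2 =
      NT (d - 1) c ^ 2 * (dfctW (d - 1) p h ((E : ℂ) + η * I) (TE d c a b 1 E) ^ 2 +
        dfctW (d - 1) p h ((E : ℂ) + η * I) (TE d c a b 2 E) ^ 2) := by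
  rw [← Complex.normSq_eq_norm_sq, Complex.normSq_apply, mu_sub_re hc hE, mu_sub_im hc hE]
  ring

/-- The constant of the output. -/
noncomputable def C9' (d : ℕ) (c : ℝ) : ℝ := C9 (d - 1) c * (NT (d - 1) c ^ 2 + NT (d - 1) c + 1)

lemma C9'_pos {d : ℕ} {c : ℝ} (hc : 0 < c) : 0 < C9' d c := by
  unfold C9'
  have := C9_pos (q := d - 1) hc
  have := NT_pos (q := d - 1) hc
  positivity

/-- **Output of C6 + C9** in the format of part C: pointwise in the energy and in the graph. -/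
theorem scales_output (hd : 3 ≤ d) {a b c : ℝ} (ha : -(2 * Real.sqrt ((d : ℝ) - 1)) < a)
    (hb : b < 2 * Real.sqrt ((d : ℝ) - 1)) (hc : 0 < c)
    (hcm : ∀ E ∈ Set.Icc a b, c ≤ (mE d E).im) {E : ℝ} (hE : E ∈ Set.Icc a b)
    (hp0 : ∀ i, 0 ≤ p i) (hp : ∑ i, p i = 1) {J : ℕ} {h : ℕ → ι → ℂ} {η : ℕ → ℝ}
    (him : ∀ j, j ≤ J → ∀ i, 0 ≤ (h j i).im)
    (hηpos : ∀ j, j ≤ J → 0 < η j) (hηle : ∀ j, j ≤ J → η j ≤ etaStar (d - 1) c)
    (hηanti : ∀ j, j < J → η (j + 1) ≤ η j)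
    (hηratio : ∀ j, j < J → η j ≤ (1 + deltaStar (d - 1) c) * η (j + 1))
    (hpick : ∀ j, j < J → ∀ i, ‖h j i - h (j + 1) i‖ ^ 2 ≤
      (η j - η (j + 1)) ^ 2 / (η j * η (j + 1)) * ((h j i).im * (h (j + 1) i).im)) :
    vv p (mE d E) (h J) ≤ C9' d c *
        (|dfctW (d - 1) p (h J) ((E : ℂ) + η J * I) (TE d c a b 0 E)| +
          dfctW (d - 1) p (h J) ((E : ℂ) + η J * I) (TE d c a b 1 E) ^ 2 +
          dfctW (d - 1) p (h J) ((E : ℂ) + η J * I) (TE d c a b 2 E) ^ 2 + η J ^ 2) +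
      C9' d c * (vv p (mE d E) (h 0) + ∑ j ∈ range J, ∑ k : Fin 3,
        dfctW (d - 1) p (h j) ((E : ℂ) + η j * I) (TE d c a b k E) ^ 2) := by
  have hr : Root (d - 1) E (mE d E) := root_mE (by omega) (abs_lt.mpr
    ⟨lt_of_lt_of_le ha hE.1, lt_of_le_of_lt hE.2 hb⟩)
  have hN := NT_pos (q := d - 1) hc
  have key := hr.scales (by omega : 2 ≤ d - 1) hc (hcm E hE) hp0 hp him hηpos hηle (by
    intro j hj i
    have h1 := pick_of_ratio (hηpos (j + 1) hj) (hηanti j hj) (hηratio j hj)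
      (him j hj.le i) (him (j + 1) hj i) (hpick j hj i)
    rw [norm_sub_rev, mul_comm ((h (j + 1) i).im)]
    exact h1)
  refine key.trans ?_
  have hC9 := C9_pos (q := d - 1) hc
  have hv0 : 0 ≤ vv p (mE d E) (h 0) := vv_nonneg hp0 _
  have e1 : ∀ j, |vv p (mE d E) (h j) - vv' (d - 1) p (mE d E) E (η j) (h j)| =
      NT (d - 1) c * |dfctW (d - 1) p (h j) ((E : ℂ) + η j * I) (TE d c a b 0 E)| := by
    intro j
    rw [vv_sub_eq hc hE, abs_mul, abs_of_pos hN]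
  have e2 : ∀ j, ‖mu p (mE d E) (h j) - mu' (d - 1) p (mE d E) E (η j) (h j)‖ ^ 2 =
      NT (d - 1) c ^ 2 * (dfctW (d - 1) p (h j) ((E : ℂ) + η j * I) (TE d c a b 1 E) ^ 2 +
        dfctW (d - 1) p (h j) ((E : ℂ) + η j * I) (TE d c a b 2 E) ^ 2) :=
    fun j => mu_sub_sq hc hE (h j)
  have e3 : ∀ j, |vv p (mE d E) (h j) - vv' (d - 1) p (mE d E) E (η j) (h j)| ^ 2 +
      ‖mu p (mE d E) (h j) - mu' (d - 1) p (mE d E) E (η j) (h j)‖ ^ 2 =
      NT (d - 1) c ^ 2 * ∑ k : Fin 3,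
        dfctW (d - 1) p (h j) ((E : ℂ) + η j * I) (TE d c a b k E) ^ 2 := by
    intro j
    rw [e1, e2, Fin.sum_univ_three, mul_pow, sq_abs]
    ring
  simp only [e3, ← mul_sum]
  rw [e1, e2]
  set S := ∑ j ∈ range J, ∑ k : Fin 3,
        dfctW (d - 1) p (h j) ((E : ℂ) + η j * I) (TE d c a b k E) ^ 2 with hS
  have hS0 : 0 ≤ S := sum_nonneg fun j _ => sum_nonneg fun k _ => sq_nonneg _
  have hx0 := abs_nonneg (dfctW (d - 1) p (h J) ((E : ℂ) + η J * I) (TE d c a b 0 E))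
  have hx1 := sq_nonneg (dfctW (d - 1) p (h J) ((E : ℂ) + η J * I) (TE d c a b 1 E))
  have hx2 := sq_nonneg (dfctW (d - 1) p (h J) ((E : ℂ) + η J * I) (TE d c a b 2 E))
  clear_value S
  generalize |dfctW (d - 1) p (h J) ((E : ℂ) + η J * I) (TE d c a b 0 E)| = x0 at hx0 ⊢
  generalize dfctW (d - 1) p (h J) ((E : ℂ) + η J * I) (TE d c a b 1 E) ^ 2 = x1 at hx1 ⊢
  generalize dfctW (d - 1) p (h J) ((E : ℂ) + η J * I) (TE d c a b 2 E) ^ 2 = x2 at hx2 ⊢
  have e9 : C9' d c = C9 (d - 1) c * (NT (d - 1) c ^ 2 + NT (d - 1) c + 1) := rfl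
  rw [e9]
  generalize vv p (mE d E) (h 0) = v0 at hv0 ⊢
  generalize C9 (d - 1) c = C at hC9 ⊢
  generalize NT (d - 1) c = N at hN ⊢
  have hη2 : 0 ≤ η J ^ 2 := sq_nonneg _
  generalize η J ^ 2 = y at hη2 ⊢
  have h1 : N * x0 + N ^ 2 * (x1 + x2) + y ≤ (N ^ 2 + N + 1) * (x0 + x1 + x2 + y) := by
    have : 0 ≤ N * (x1 + x2 + y) + N ^ 2 * (x0 + y) + (x0 + x1 + x2) := by positivity
    linarith
  have h2 : v0 + N ^ 2 * S ≤ (N ^ 2 + N + 1) * (v0 + S) := by
    have : 0 ≤ N ^ 2 * v0 + N * (v0 + S) + S := by positivity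
    linarith
  calc C * (N * x0 + N ^ 2 * (x1 + x2) + y) + C * (v0 + N ^ 2 * S)
      ≤ C * ((N ^ 2 + N + 1) * (x0 + x1 + x2 + y)) + C * ((N ^ 2 + N + 1) * (v0 + S)) := by
        gcongr
    _ = C * (N ^ 2 + N + 1) * (x0 + x1 + x2 + y) + C * (N ^ 2 + N + 1) * (v0 + S) := by ring

end output

end P156.Gap
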