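import Mathlib

/-!
P156, part C: weighted averages over finite types, and over `q`-tuples.
-/

namespace P156.Gap

open Finset

/-- Weighted average over a finite type. -/
noncomputable def Av {ι : Type*} [Fintype ι] (p : ι → ℝ) (f : ι → ℝ) : ℝ := ∑ i, p i * f i

/-- Weighted average over a finite type, complex valued. -/
noncomputable def AvC {ι : Type*} [Fintype ι] (p : ι → ℝ) (f : ι → ℂ) : ℂ :=
  ∑ i, (p i : ℂ) * f i

/-- The product weight on `q`-tuples. -/
noncomputable def pw {ι : Type*} (q : ℕ) (p : ι → ℝ) : (Fin q → ι) → ℝ := fun t => ∏ k, p (t k)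

section gen

variable {ι : Type*} [Fintype ι] {q : ℕ}

/-- Product formula over tuples, in any commutative ring. -/
lemma sum_tuple_prod {R : Type*} [CommRing R] (p : ι → R) (hp : ∑ i, p i = 1) (F : Fin q → ι → R) :
    ∑ t : Fin q → ι, (∏ k, p (t k)) * ∏ k, F k (t k) = ∏ k, ∑ i, p i * F k i := by
  rw [Finset.prod_univ_sum, Fintype.piFinset_univ]
  refine sum_congr rfl fun t _ => ?_
  rw [← prod_mul_distrib]

lemma sum_tuple_one {R : Type*} [CommRing R] (p : ι → R) (hp : ∑ i, p i = 1) :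
    ∑ t : Fin q → ι, (∏ k, p (t k)) = 1 := by
  have h := sum_tuple_prod (q := q) p hp (fun _ _ => 1)
  simpa [hp] using h

lemma sum_tuple_coord {R : Type*} [CommRing R] (p : ι → R) (hp : ∑ i, p i = 1)
    (k : Fin q) (f : ι → R) :
    ∑ t : Fin q → ι, (∏ k, p (t k)) * f (t k) = ∑ i, p i * f i := by
  have h := sum_tuple_prod (q := q) p hp (fun x : Fin q => if x = k then f else fun _ => 1)
  have e1 : ∀ t : Fin q → ι, ∏ x, (if x = k then f else fun _ => (1 : R)) (t x) = f (t k) := by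
    intro t
    rw [Finset.prod_eq_single k]
    · simp
    · intro b _ hb
      simp [hb]
    · intro h; exact absurd (mem_univ _) h
  simp only [e1] at h
  rw [h, Finset.prod_eq_single k]
  · simp
  · intro b _ hb
    simp [hb, hp]
  · intro h; exact absurd (mem_univ _) h

lemma sum_tuple_two {R : Type*} [CommRing R] (p : ι → R) (hp : ∑ i, p i = 1)
    {k l : Fin q} (hkl : k ≠ l) (f g : ι → R) :
    ∑ t : Fin q → ι, (∏ k, p (t k)) * (f (t k) * g (t l)) =
      (∑ i, p i * f i) * ∑ i, p i * g i := by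
  have h := sum_tuple_prod (q := q) p hp
    (fun x : Fin q => if x = k then f else if x = l then g else fun _ => 1)
  have key : ∀ F : Fin q → R, (∀ x, x ≠ k → x ≠ l → F x = 1) →
      ∏ x, F x = F k * F l := by
    intro F hF
    rw [← Finset.mul_prod_erase univ F (mem_univ k)]
    congr 1
    rw [Finset.prod_eq_single l]
    · intro b hb hbl
      exact hF b (ne_of_mem_erase hb) hbl
    · intro h
      exact absurd (mem_erase.mpr ⟨hkl.symm, mem_univ _⟩) h
  have e1 : ∀ t : Fin q → ι, ∏ x,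
      (if x = k then f else if x = l then g else fun _ => (1 : R)) (t x) =
      f (t k) * g (t l) := by
    intro t
    rw [key]
    · simp [hkl.symm]
    · intro x hx hx'
      simp [hx, hx']
  simp only [e1] at h
  rw [h, key]
  · simp [hkl.symm]
  · intro x hx hx'
    simp [hx, hx', hp]

end gen

section real

variable {ι : Type*} [Fintype ι] {q : ℕ} {p : ι → ℝ}

lemma pw_nonneg (hp0 : ∀ i, 0 ≤ p i) (t : Fin q → ι) : 0 ≤ pw q p t :=
  prod_nonneg fun k _ => hp0 _

lemma pw_sum (hp : ∑ i, p i = 1) : ∑ t : Fin q → ι, pw q p t = 1 := sum_tuple_one p hp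

lemma Av_add (f g : ι → ℝ) : Av p (fun i => f i + g i) = Av p f + Av p g := by
  unfold Av
  rw [← sum_add_distrib]
  exact sum_congr rfl fun i _ => by ring

lemma Av_sub (f g : ι → ℝ) : Av p (fun i => f i - g i) = Av p f - Av p g := by
  unfold Av
  rw [← sum_sub_distrib]
  exact sum_congr rfl fun i _ => by ring

lemma Av_mul_left (c : ℝ) (f : ι → ℝ) : Av p (fun i => c * f i) = c * Av p f := by
  unfold Av
  rw [mul_sum]
  exact sum_congr rfl fun i _ => by ring

lemma Av_sum {α : Type*} (S : Finset α) (f : α → ι → ℝ) :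
    Av p (fun i => ∑ a ∈ S, f a i) = ∑ a ∈ S, Av p (f a) := by
  unfold Av
  rw [sum_comm]
  exact sum_congr rfl fun i _ => by rw [mul_sum]

lemma Av_const (hp : ∑ i, p i = 1) (c : ℝ) : Av p (fun _ : ι => c) = c := by
  unfold Av
  rw [← sum_mul, hp, one_mul]

lemma Av_mono (hp0 : ∀ i, 0 ≤ p i) {f g : ι → ℝ} (h : ∀ i, f i ≤ g i) : Av p f ≤ Av p g := by
  unfold Av
  exact sum_le_sum fun i _ => mul_le_mul_of_nonneg_left (h i) (hp0 i)

lemma Av_nonneg (hp0 : ∀ i, 0 ≤ p i) {f : ι → ℝ} (h : ∀ i, 0 ≤ f i) : 0 ≤ Av p f :=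
  sum_nonneg fun i _ => mul_nonneg (hp0 i) (h i)

lemma Av_le_const (hp0 : ∀ i, 0 ≤ p i) (hp : ∑ i, p i = 1) {f : ι → ℝ} {c : ℝ}
    (h : ∀ i, f i ≤ c) : Av p f ≤ c := by
  rw [← Av_const (p := p) hp c]
  exact Av_mono hp0 h

lemma abs_Av_le (hp0 : ∀ i, 0 ≤ p i) (f : ι → ℝ) : |Av p f| ≤ Av p (fun i => |f i|) := by
  unfold Av
  refine (abs_sum_le_sum_abs _ _).trans (le_of_eq ?_)
  exact sum_congr rfl fun i _ => by rw [abs_mul, abs_of_nonneg (hp0 i)]

lemma AvC_add (f g : ι → ℂ) : AvC p (fun i => f i + g i) = AvC p f + AvC p g := by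
  unfold AvC
  rw [← sum_add_distrib]
  exact sum_congr rfl fun i _ => by ring

lemma AvC_sub (f g : ι → ℂ) : AvC p (fun i => f i - g i) = AvC p f - AvC p g := by
  unfold AvC
  rw [← sum_sub_distrib]
  exact sum_congr rfl fun i _ => by ring

lemma AvC_mul_left (c : ℂ) (f : ι → ℂ) : AvC p (fun i => c * f i) = c * AvC p f := by
  unfold AvC
  rw [mul_sum]
  exact sum_congr rfl fun i _ => by ring

lemma AvC_sum {α : Type*} (S : Finset α) (f : α → ι → ℂ) :
    AvC p (fun i => ∑ a ∈ S, f a i) = ∑ a ∈ S, AvC p (f a) := by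
  unfold AvC
  rw [sum_comm]
  exact sum_congr rfl fun i _ => by rw [mul_sum]

lemma norm_AvC_le (hp0 : ∀ i, 0 ≤ p i) (f : ι → ℂ) : ‖AvC p f‖ ≤ Av p (fun i => ‖f i‖) := by
  unfold AvC Av
  refine (norm_sum_le _ _).trans (le_of_eq ?_)
  refine sum_congr rfl fun i _ => ?_
  rw [norm_mul, Complex.norm_real, Real.norm_of_nonneg (hp0 i)]

lemma AvC_ofReal (f : ι → ℝ) : AvC p (fun i => ((f i : ℝ) : ℂ)) = ((Av p f : ℝ) : ℂ) := by
  unfold AvC Av
  push_cast
  rfl

lemma Av_re (f : ι → ℂ) : (AvC p f).re = Av p (fun i => (f i).re) := by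
  unfold AvC Av
  rw [Complex.re_sum]
  exact sum_congr rfl fun i _ => by simp

/-- Cauchy-Schwarz: `(Av f)² ≤ Av f²`. -/
lemma sq_Av_le (hp0 : ∀ i, 0 ≤ p i) (hp : ∑ i, p i = 1) (f : ι → ℝ) :
    (Av p f) ^ 2 ≤ Av p (fun i => f i ^ 2) := by
  have h : 0 ≤ Av p (fun i => (f i - Av p f) ^ 2) := Av_nonneg hp0 fun i => sq_nonneg _
  have e : Av p (fun i => (f i - Av p f) ^ 2) = Av p (fun i => f i ^ 2) - (Av p f) ^ 2 := by
    have e1 : (fun i => (f i - Av p f) ^ 2) =
        fun i => (f i ^ 2 - (2 * Av p f) * f i) + (Av p f) ^ 2 := by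
      funext i; ring
    rw [e1, Av_add, Av_sub, Av_mul_left, Av_const hp]
    ring
  linarith

lemma Av_coord (hp : ∑ i, p i = 1) (k : Fin q) (f : ι → ℝ) :
    Av (pw q p) (fun t : Fin q → ι => f (t k)) = Av p f := sum_tuple_coord p hp k f

lemma Av_two (hp : ∑ i, p i = 1) {k l : Fin q} (hkl : k ≠ l) (f g : ι → ℝ) :
    Av (pw q p) (fun t : Fin q → ι => f (t k) * g (t l)) = Av p f * Av p g :=
  sum_tuple_two p hp hkl f g

lemma AvC_coord (hp : ∑ i, p i = 1) (k : Fin q) (f : ι → ℂ) :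
    AvC (pw q p) (fun t : Fin q → ι => f (t k)) = AvC p f := by
  have hp' : ∑ i, (p i : ℂ) = 1 := by exact_mod_cast hp
  have := sum_tuple_coord (q := q) (fun i => (p i : ℂ)) hp' k f
  unfold AvC pw
  push_cast
  exact this

lemma AvC_two (hp : ∑ i, p i = 1) {k l : Fin q} (hkl : k ≠ l) (f g : ι → ℂ) :
    AvC (pw q p) (fun t : Fin q → ι => f (t k) * g (t l)) = AvC p f * AvC p g := by
  have hp' : ∑ i, (p i : ℂ) = 1 := by exact_mod_cast hp
  have := sum_tuple_two (q := q) (fun i => (p i : ℂ)) hp' hkl f g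
  unfold AvC pw
  push_cast
  exact this

end real

end P156.Gap
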