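import Vale.Agent.P156.H992.Gap
import Vale.Agent.P156.H992.PhiSum
import Vale.Agent.P156.H992.Av

/-!
P156, part C6: the gap lemma.
-/

namespace P156.Gap

open Complex Finset

section point

variable {q : ℕ} {E : ℝ} {m : ℂ}

/-- `T` of the tree recursion. -/
lemma Root.T_rec (h : Root q E m) {w : ℂ} (hw : w ≠ 0) :
    T m (-1 / w) = m ^ 2 * ((w + m⁻¹) / (w + m)) := by
  have hm := h.ne_zero
  unfold T
  by_cases hd : w + m = 0
  · have e1 : -1 / w - m⁻¹ = 0 := by
      have : w = -m := by linear_combination hd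
      rw [this]
      field_simp
      ring
    rw [e1, hd]
    simp
  · have e1 : -1 / w - m⁻¹ = -(w + m) * (w⁻¹ * m⁻¹) := by
      field_simp
      ring
    have e2 : -1 / w - m = -(w + m⁻¹) * (w⁻¹ * m) := by
      field_simp
      ring
    rw [e1, e2]
    field_simp

lemma Root.one_sub (h : Root q E m) : 2 * m.im ≤ ‖1 - (q : ℂ) * m ^ 2‖ := by
  have hm := h.ne_zero
  have e : 1 - (q : ℂ) * m ^ 2 = m * ((q : ℂ) * ((starRingEnd ℂ) m - m)) := by
    have h1 : m * m⁻¹ = 1 := mul_inv_cancel₀ hm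
    rw [h.inv_eq] at h1
    linear_combination -h1
  have e2 : (starRingEnd ℂ) m - m = ((-(2 * m.im) : ℝ) : ℂ) * Complex.I := by
    apply Complex.ext
    · simp
    · simp; ring
  rw [e, e2, norm_mul, norm_mul, norm_mul, Complex.norm_natCast, Complex.norm_I,
    Complex.norm_real, Real.norm_eq_abs, abs_neg, abs_of_pos (by have := h.im_pos; positivity)]
  have h1 := h.norm_sq
  have h2 := h.norm_le_one
  have h3 : 1 ≤ ‖m‖ * q := by
    have hq0 : (0 : ℝ) ≤ q := Nat.cast_nonneg _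
    nlinarith [mul_nonneg (mul_nonneg hq0 (norm_nonneg m)) (sub_nonneg.mpr h2)]
  have him := h.im_pos
  nlinarith

/-- The constant of the linearisation. -/
noncomputable def D0 (q : ℕ) (c : ℝ) : ℝ :=
  (1 + (q + 1) / c) * (1 + (1 + (q + 1) / c) * (1 + (q + 1) / c)) ^ q

lemma D0_nonneg {q : ℕ} {c : ℝ} (hc : 0 < c) : 0 ≤ D0 q c := by
  unfold D0
  positivity

/-- Pointwise linearisation of the recursion. -/
lemma Root.rec_lin (hr : Root q E m) {c : ℝ} (hc : 0 < c) (hcm : c ≤ m.im) {h : Fin q → ℂ}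
    (hh : ∀ k, 0 ≤ (h k).im) {η : ℝ} (hη : 0 < η) :
    ∃ R : ℂ, T m (-1 / (E + η * I + ∑ k, h k)) = m ^ 2 * (∑ k, T m (h k) + R) ∧
      ‖R‖ ≤ D0 q c * ((∑ k, ‖T m (h k)‖) ^ 2 - ∑ k, ‖T m (h k)‖ ^ 2) + (q + 1) / c ^ 2 * η := by
  set κ : ℂ := m - m⁻¹ with hκ
  have him := hr.im_pos
  have hq : (1 : ℝ) ≤ q := by exact_mod_cast hr.qpos
  have hκn : ‖κ‖ ≤ q + 1 := hr.kappa_norm
  have hκi : κ.im = (q + 1) * m.im := hr.kappa_im
  -- denominators
  have hden : ∀ S' : Finset (Fin q), c ≤ ‖∑ k ∈ S', (h k - m) + κ‖ := by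
    intro S'
    have h1 : (∑ k ∈ S', (h k - m) + κ).im =
        ∑ k ∈ S', (h k).im + ((q : ℝ) + 1 - S'.card) * m.im := by
      rw [Complex.add_im, Complex.im_sum, hκi]
      simp only [Complex.sub_im, sum_sub_distrib, sum_const, nsmul_eq_mul]
      ring
    have h2 : 0 ≤ ∑ k ∈ S', (h k).im := sum_nonneg fun k _ => hh k
    have h3 : (S'.card : ℝ) ≤ q := by
      have := card_le_univ S'
      rw [Fintype.card_fin] at this
      exact_mod_cast this
    have h4 : c ≤ (∑ k ∈ S', (h k - m) + κ).im := by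
      rw [h1]
      nlinarith
    exact h4.trans ((le_abs_self _).trans (Complex.abs_im_le_norm _))
  have hs : ∀ k ∈ (univ : Finset (Fin q)), c ≤ ‖(h k - m) + κ‖ := by
    intro k _
    have := hden {k}
    simpa using this
  have hT : ∀ k, T m (h k) = Phi κ (h k - m) := fun k => T_eq_Phi m (h k)
  have hB : ∀ k ∈ (univ : Finset (Fin q)), ‖Phi κ (h k - m)‖ ≤ 1 + (q + 1) / c := by
    intro k _
    rw [← hT k]
    refine (hr.T_bound (hh k)).trans ?_
    gcongr
  obtain ⟨-, hmain⟩ := Phi_sum (κ := κ) (s := fun k => h k - m) hc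
    (B := 1 + (q + 1) / c) (by positivity) univ (fun S' _ => hden S') hs hB
  -- the value of the recursion
  set S : ℂ := ∑ k, (h k - m) with hS
  have hSh : ∑ k, h k = S + q * m := by
    rw [hS, sum_sub_distrib]
    simp
  set w : ℂ := (E : ℂ) + η * I + ∑ k, h k with hw
  have hwim : 0 < w.im := by
    rw [hw]
    simp only [Complex.add_im, Complex.ofReal_im, Complex.mul_im, Complex.ofReal_re,
      Complex.I_im, Complex.I_re, Complex.im_sum]
    have : 0 ≤ ∑ k, (h k).im := sum_nonneg fun k _ => hh k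
    linarith
  have hw0 : w ≠ 0 := by
    intro h0
    rw [h0] at hwim
    simp at hwim
  have e1 : w + m⁻¹ = S + η * I := by
    rw [hw, hSh, hr.E_eq]
    ring
  have e2 : w + m = S + η * I + κ := by
    rw [hw, hSh, hr.E_eq, hκ]
    ring
  refine ⟨Phi κ (S + η * I) - ∑ k, T m (h k), ?_, ?_⟩
  · rw [hr.T_rec hw0, e1, e2]
    unfold Phi
    ring
  · have hd1 : c ≤ ‖S + κ‖ := hden univ
    have hd2 : c ≤ ‖S + η * I + κ‖ := by
      have h1 : (S + η * I + κ).im = (S + κ).im + η := by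
        simp
        ring
      have h4 : (S + κ).im = ∑ k, (h k).im + m.im := by
        rw [hS, Complex.add_im, Complex.im_sum, hκi]
        simp only [Complex.sub_im, sum_sub_distrib, sum_const, nsmul_eq_mul, card_univ,
          Fintype.card_fin]
        ring
      have h2 : 0 ≤ ∑ k, (h k).im := sum_nonneg fun k _ => hh k
      have h5 : c ≤ (S + η * I + κ).im := by
        rw [h1, h4]; linarith
      exact h5.trans ((le_abs_self _).trans (Complex.abs_im_le_norm _))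
    have hd1' : S + κ ≠ 0 := by
      intro h0; rw [h0, norm_zero] at hd1; linarith
    have hd2' : S + η * I + κ ≠ 0 := by
      intro h0; rw [h0, norm_zero] at hd2; linarith
    have e3 : Phi κ (S + η * I) - Phi κ S = κ * (η * I) / ((S + η * I + κ) * (S + κ)) := by
      unfold Phi
      rw [div_sub_div _ _ hd2' hd1']
      congr 1
      ring
    have h3 : ‖Phi κ (S + η * I) - Phi κ S‖ ≤ (q + 1) / c ^ 2 * η := by
      rw [e3, norm_div, norm_mul, norm_mul, norm_mul, Complex.norm_I, Complex.norm_real,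
        Real.norm_of_nonneg hη.le, mul_one]
      rw [div_mul_eq_mul_div]
      have hp1 : 0 < ‖S + η * I + κ‖ := by linarith
      have hp2 : 0 < ‖S + κ‖ := by linarith
      gcongr
      rw [pow_two]
      gcongr
    have e4 : Phi κ (S + η * I) - ∑ k, T m (h k) =
        (Phi κ S - ∑ k, Phi κ (h k - m)) + (Phi κ (S + η * I) - Phi κ S) := by
      simp only [hT]
      ring
    rw [e4]
    refine (norm_add_le _ _).trans ?_
    refine add_le_add ?_ h3
    simp only [hT]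
    refine hmain.trans ?_
    rw [card_univ, Fintype.card_fin]
    have hP : 0 ≤ (∑ k, ‖Phi κ (h k - m)‖) ^ 2 - ∑ k, ‖Phi κ (h k - m)‖ ^ 2 := by
      have := sum_sq_le_sq (S := univ) (f := fun k => ‖Phi κ (h k - m)‖)
        (fun k _ => norm_nonneg _)
      linarith
    unfold D0
    gcongr

end point

section average

variable {ι : Type*} [Fintype ι] {q : ℕ} {p : ι → ℝ}

/-- `(∑ a)² - ∑ a²` as a sum over ordered pairs of distinct indices. -/
lemma sq_sub_eq (a : Fin q → ℝ) :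
    (∑ k, a k) ^ 2 - ∑ k, a k ^ 2 = ∑ k, ∑ l ∈ univ.erase k, a k * a l := by
  rw [pow_two, sum_mul_sum, ← sum_sub_distrib]
  refine sum_congr rfl fun k _ => ?_
  rw [← Finset.add_sum_erase univ _ (mem_univ k)]
  ring

lemma Av_pairs (hp : ∑ i, p i = 1) (f : ι → ℝ) :
    Av (pw q p) (fun t => (∑ k, f (t k)) ^ 2 - ∑ k, f (t k) ^ 2) =
      (q * (q - 1) : ℝ) * (Av p f) ^ 2 := by
  have e : (fun t : Fin q → ι => (∑ k, f (t k)) ^ 2 - ∑ k, f (t k) ^ 2) =
      fun t => ∑ k, ∑ l ∈ univ.erase k, f (t k) * f (t l) := by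
    funext t
    exact sq_sub_eq fun k => f (t k)
  rw [e, Av_sum]
  have : ∀ k : Fin q, Av (pw q p) (fun t => ∑ l ∈ univ.erase k, f (t k) * f (t l)) =
      ((q : ℝ) - 1) * (Av p f) ^ 2 := by
    intro k
    rw [Av_sum]
    rw [sum_congr rfl (fun l hl => Av_two hp (ne_of_mem_erase hl).symm f f)]
    rw [sum_const, card_erase_of_mem (mem_univ k), card_univ, Fintype.card_fin, nsmul_eq_mul]
    have hq : 1 ≤ q := by
      have := k.pos
      omega
    rw [Nat.cast_sub hq]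
    push_cast
    ring
  rw [sum_congr rfl (fun k _ => this k), sum_const, card_univ, Fintype.card_fin, nsmul_eq_mul]
  ring

lemma Av_pairs_sq (hp0 : ∀ i, 0 ≤ p i) (hp : ∑ i, p i = 1) (f : ι → ℝ) :
    Av (pw q p) (fun t => ((∑ k, f (t k)) ^ 2 - ∑ k, f (t k) ^ 2) ^ 2) ≤
      (q : ℝ) ^ 4 * (Av p (fun i => f i ^ 2)) ^ 2 := by
  have hpt : ∀ t : Fin q → ι, ((∑ k, f (t k)) ^ 2 - ∑ k, f (t k) ^ 2) ^ 2 ≤
      (q : ℝ) ^ 2 * ((∑ k, f (t k) ^ 2) ^ 2 - ∑ k, (f (t k) ^ 2) ^ 2) := by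
    intro t
    rw [sq_sub_eq fun k => f (t k), sq_sub_eq fun k => f (t k) ^ 2]
    have h1 : (∑ k, ∑ l ∈ univ.erase k, f (t k) * f (t l)) ^ 2 ≤
        (q : ℝ) * ∑ k, (∑ l ∈ univ.erase k, f (t k) * f (t l)) ^ 2 := by
      have := sq_sum_le_card_mul_sum_sq (s := (univ : Finset (Fin q)))
        (f := fun k => ∑ l ∈ univ.erase k, f (t k) * f (t l))
      rwa [card_univ, Fintype.card_fin] at this
    have h2 : ∀ k : Fin q, (∑ l ∈ univ.erase k, f (t k) * f (t l)) ^ 2 ≤
        (q : ℝ) * ∑ l ∈ univ.erase k, f (t k) ^ 2 * f (t l) ^ 2 := by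
      intro k
      have h3 := sq_sum_le_card_mul_sum_sq (s := (univ.erase k : Finset (Fin q)))
        (f := fun l => f (t k) * f (t l))
      refine h3.trans ?_
      have h4 : ((univ.erase k : Finset (Fin q)).card : ℝ) ≤ q := by
        have := card_le_univ (univ.erase k : Finset (Fin q))
        rw [Fintype.card_fin] at this
        exact_mod_cast this
      have h5 : ∑ l ∈ univ.erase k, (f (t k) * f (t l)) ^ 2 =
          ∑ l ∈ univ.erase k, f (t k) ^ 2 * f (t l) ^ 2 :=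
        sum_congr rfl fun l _ => by ring
      rw [h5]
      have h6 : 0 ≤ ∑ l ∈ univ.erase k, f (t k) ^ 2 * f (t l) ^ 2 :=
        sum_nonneg fun l _ => by positivity
      gcongr
    calc _ ≤ _ := h1
      _ ≤ (q : ℝ) * ∑ k, ((q : ℝ) * ∑ l ∈ univ.erase k, f (t k) ^ 2 * f (t l) ^ 2) := by
          gcongr with k
          exact h2 k
      _ = (q : ℝ) ^ 2 * ∑ k, ∑ l ∈ univ.erase k, f (t k) ^ 2 * f (t l) ^ 2 := by
          rw [← mul_sum]; ring
  refine (Av_mono (pw_nonneg hp0) hpt).trans ?_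
  rw [Av_mul_left]
  have := Av_pairs (q := q) hp (fun i => f i ^ 2)
  rw [this]
  have h0 : 0 ≤ (Av p (fun i => f i ^ 2)) ^ 2 := sq_nonneg _
  have hq : (0 : ℝ) ≤ q := Nat.cast_nonneg _
  have : (q : ℝ) ^ 2 * ((q : ℝ) * (q - 1)) ≤ (q : ℝ) ^ 4 := by
    have : 0 ≤ (q : ℝ) ^ 3 := by positivity
    nlinarith
  nlinarith

lemma Av_norm_sum_sq (hp : ∑ i, p i = 1) (f : ι → ℂ) :
    Av (pw q p) (fun t => ‖∑ k, f (t k)‖ ^ 2) =
      q * Av p (fun i => ‖f i‖ ^ 2) + (q * (q - 1) : ℝ) * ‖AvC p f‖ ^ 2 := by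
  have hsq : ∀ z : ℂ, ‖z‖ ^ 2 = z.re ^ 2 + z.im ^ 2 := by
    intro z
    rw [← Complex.normSq_eq_norm_sq, Complex.normSq_apply]
    ring
  have e : (fun t : Fin q → ι => ‖∑ k, f (t k)‖ ^ 2) =
      fun t => (((∑ k, (f (t k)).re) ^ 2 - ∑ k, (f (t k)).re ^ 2) +
        ((∑ k, (f (t k)).im) ^ 2 - ∑ k, (f (t k)).im ^ 2)) + ∑ k, ‖f (t k)‖ ^ 2 := by
    funext t
    simp only [hsq, Complex.re_sum, Complex.im_sum, sum_add_distrib]
    ring
  rw [e, Av_add, Av_add]
  have h1 := Av_pairs (q := q) hp (fun i => (f i).re)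
  have h2 := Av_pairs (q := q) hp (fun i => (f i).im)
  rw [h1, h2, Av_sum]
  have h3 : ∀ k : Fin q, Av (pw q p) (fun t : Fin q → ι => ‖f (t k)‖ ^ 2) =
      Av p (fun i => ‖f i‖ ^ 2) := fun k => Av_coord hp k (fun i => ‖f i‖ ^ 2)
  rw [sum_congr rfl (fun k _ => h3 k), sum_const, card_univ, Fintype.card_fin, nsmul_eq_mul,
    hsq]
  have h4 : (AvC p f).re = Av p (fun i => (f i).re) := by
    unfold AvC Av
    rw [Complex.re_sum]
    exact sum_congr rfl fun i _ => by simp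
  have h5 : (AvC p f).im = Av p (fun i => (f i).im) := by
    unfold AvC Av
    rw [Complex.im_sum]
    exact sum_congr rfl fun i _ => by simp
  rw [h4, h5]
  ring

end average

end P156.Gap
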