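import Vale.Agent.P156.H992.GapLemma

/-!
P156, part C6: the gap lemma, final form.
-/

namespace P156.Gap

open Complex Finset

/-- Mean of `‖T‖²`. -/
noncomputable def vv {ι : Type*} [Fintype ι] (p : ι → ℝ) (m : ℂ) (h : ι → ℂ) : ℝ :=
  Av p fun i => ‖T m (h i)‖ ^ 2

/-- Mean of `T`. -/
noncomputable def mu {ι : Type*} [Fintype ι] (p : ι → ℝ) (m : ℂ) (h : ι → ℂ) : ℂ :=
  AvC p fun i => T m (h i)

/-- The tree recursion applied to a tuple. -/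
noncomputable def recf {ι : Type*} {q : ℕ} (E η : ℝ) (h : ι → ℂ) (t : Fin q → ι) : ℂ :=
  -1 / ((E : ℂ) + η * I + ∑ k, h (t k))

/-- Mean of `‖T‖²` after one step of the recursion. -/
noncomputable def vv' {ι : Type*} [Fintype ι] (q : ℕ) (p : ι → ℝ) (m : ℂ) (E η : ℝ)
    (h : ι → ℂ) : ℝ :=
  Av (pw q p) fun t => ‖T m (recf E η h t)‖ ^ 2

/-- Mean of `T` after one step of the recursion. -/
noncomputable def mu' {ι : Type*} [Fintype ι] (q : ℕ) (p : ι → ℝ) (m : ℂ) (E η : ℝ)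
    (h : ι → ℂ) : ℂ :=
  AvC (pw q p) fun t => T m (recf E η h t)

section

variable {ι : Type*} [Fintype ι] {q : ℕ} {p : ι → ℝ} {E : ℝ} {m : ℂ}

lemma vv_nonneg (hp0 : ∀ i, 0 ≤ p i) (h : ι → ℂ) : 0 ≤ vv p m h :=
  Av_nonneg hp0 fun _ => by positivity

/-- Constants of the two linearised estimates. -/
noncomputable def K1 (q : ℕ) (c : ℝ) : ℝ := 10 * (D0 q c) ^ 2 * q ^ 4 + D0 q c * q ^ 2 + 1
noncomputable def K2 (q : ℕ) (c : ℝ) : ℝ := 10 * ((q + 1) / c ^ 2) ^ 2 + (q + 1) / c ^ 2 + 1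

lemma K1_pos {q : ℕ} {c : ℝ} (hc : 0 < c) : 0 < K1 q c := by
  unfold K1
  have := D0_nonneg (q := q) hc
  positivity

lemma K2_pos {q : ℕ} {c : ℝ} (hc : 0 < c) : 0 < K2 q c := by
  unfold K2
  positivity

/-- Real arithmetic of the second moment. -/
lemma moment_real {q D e η v μ X K₁ K₂ : ℝ} (hq1 : 1 ≤ q) (hD : 0 ≤ D) (he0 : 0 ≤ e)
    (hK1 : 10 * D ^ 2 * q ^ 4 ≤ K₁) (hK2 : 10 * e ^ 2 ≤ K₂)
    (hX : X ≤ 1 / q ^ 2 * (5 / 4 * (q * v + (q * (q - 1)) * μ ^ 2) +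
      (10 * D ^ 2 * (q ^ 4 * v ^ 2) + 10 * e ^ 2 * η ^ 2))) :
    X ≤ 5 / 4 * (v / q + μ ^ 2) + K₁ * v ^ 2 + K₂ * η ^ 2 := by
  have hq0 : 0 < q := by linarith
  refine hX.trans ?_
  have hinv : 1 / q ^ 2 ≤ 1 := by
    rw [div_le_one (by positivity)]
    nlinarith
  have hinv0 : 0 ≤ 1 / q ^ 2 := by positivity
  have t1 : 1 / q ^ 2 * (q * v) = v / q := by
    field_simp
  have t2 : 1 / q ^ 2 * ((q * (q - 1)) * μ ^ 2) ≤ μ ^ 2 := by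
    have h1 : 1 / q ^ 2 * (q * (q - 1)) ≤ 1 := by
      rw [div_mul_eq_mul_div, div_le_one (by positivity)]
      nlinarith
    calc 1 / q ^ 2 * ((q * (q - 1)) * μ ^ 2) = (1 / q ^ 2 * (q * (q - 1))) * μ ^ 2 := by ring
      _ ≤ 1 * μ ^ 2 := by gcongr
      _ = μ ^ 2 := one_mul _
  have t3 : 1 / q ^ 2 * (10 * D ^ 2 * (q ^ 4 * v ^ 2)) ≤ K₁ * v ^ 2 := by
    calc 1 / q ^ 2 * (10 * D ^ 2 * (q ^ 4 * v ^ 2))
        ≤ 1 * (10 * D ^ 2 * (q ^ 4 * v ^ 2)) := by gcongr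
      _ = (10 * D ^ 2 * q ^ 4) * v ^ 2 := by ring
      _ ≤ K₁ * v ^ 2 := by gcongr
  have t4 : 1 / q ^ 2 * (10 * e ^ 2 * η ^ 2) ≤ K₂ * η ^ 2 := by
    calc 1 / q ^ 2 * (10 * e ^ 2 * η ^ 2) ≤ 1 * (10 * e ^ 2 * η ^ 2) := by gcongr
      _ = (10 * e ^ 2) * η ^ 2 := by ring
      _ ≤ K₂ * η ^ 2 := by gcongr
  have e1 : 1 / q ^ 2 * (5 / 4 * (q * v + (q * (q - 1)) * μ ^ 2) +
      (10 * D ^ 2 * (q ^ 4 * v ^ 2) + 10 * e ^ 2 * η ^ 2)) =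
      5 / 4 * (1 / q ^ 2 * (q * v) + 1 / q ^ 2 * ((q * (q - 1)) * μ ^ 2)) +
      (1 / q ^ 2 * (10 * D ^ 2 * (q ^ 4 * v ^ 2)) + 1 / q ^ 2 * (10 * e ^ 2 * η ^ 2)) := by
    ring
  rw [e1, t1]
  linarith

/-- The remainder of the linearisation, chosen for all tuples at once. -/
lemma Root.exists_rem (hr : Root q E m) {c : ℝ} (hc : 0 < c) (hcm : c ≤ m.im)
    {h : ι → ℂ} (hh : ∀ i, 0 ≤ (h i).im) {η : ℝ} (hη : 0 < η) :
    ∃ R : (Fin q → ι) → ℂ, (∀ t, T m (recf E η h t) = m ^ 2 * (∑ k, T m (h (t k)) + R t)) ∧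
      ∀ t, ‖R t‖ ≤ D0 q c * ((∑ k, ‖T m (h (t k))‖) ^ 2 - ∑ k, ‖T m (h (t k))‖ ^ 2) +
        (q + 1) / c ^ 2 * η := by
  choose R hR1 hR2 using fun t : Fin q → ι =>
    hr.rec_lin hc hcm (h := fun k => h (t k)) (fun k => hh _) hη
  exact ⟨R, hR1, hR2⟩

/-- Second moment after one step of the recursion. -/
lemma Root.moment_two (hr : Root q E m) {c : ℝ} (hc : 0 < c) (hcm : c ≤ m.im)
    (hp0 : ∀ i, 0 ≤ p i) (hp : ∑ i, p i = 1) {h : ι → ℂ} (hh : ∀ i, 0 ≤ (h i).im)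
    {η : ℝ} (hη : 0 < η) :
    vv' q p m E η h ≤ 5 / 4 * (vv p m h / q + ‖mu p m h‖ ^ 2) + K1 q c * vv p m h ^ 2 +
        K2 q c * η ^ 2 := by
  have hq1 : (1 : ℝ) ≤ q := by exact_mod_cast hr.qpos
  have hq0 : (0 : ℝ) < q := by linarith
  have hD := D0_nonneg (q := q) hc
  obtain ⟨R, hR1, hR2⟩ := hr.exists_rem hc hcm hh hη
  have he0 : (0 : ℝ) ≤ (q + 1) / c ^ 2 := by positivity
  have hm2 : ‖m‖ ^ 2 = 1 / q := by
    have := hr.norm_sq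
    field_simp
    linarith
  have hpt : ∀ t : Fin q → ι, ‖T m (recf E η h t)‖ ^ 2 ≤
      (1 / (q : ℝ) ^ 2) * (5 / 4 * ‖∑ k, T m (h (t k))‖ ^ 2 + (10 * D0 q c ^ 2 *
        ((∑ k, ‖T m (h (t k))‖) ^ 2 - ∑ k, ‖T m (h (t k))‖ ^ 2) ^ 2 +
        10 * ((q + 1) / c ^ 2) ^ 2 * η ^ 2)) := by
    intro t
    rw [hR1 t, norm_mul, norm_pow, mul_pow, hm2, div_pow, one_pow]
    have h1 := hR2 t
    generalize (∑ k, ‖T m (h (t k))‖) ^ 2 - ∑ k, ‖T m (h (t k))‖ ^ 2 = P at h1 ⊢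
    generalize D0 q c = D at h1 ⊢
    generalize ((q : ℝ) + 1) / c ^ 2 = e at h1 ⊢
    have h2 : ‖R t‖ ^ 2 ≤ (D * P + e * η) ^ 2 := by
      gcongr
    have h3 : ‖R t‖ ^ 2 ≤ 2 * D ^ 2 * P ^ 2 + 2 * e ^ 2 * η ^ 2 := by
      nlinarith [sq_nonneg (D * P - e * η)]
    have h4 : ‖∑ k, T m (h (t k)) + R t‖ ^ 2 ≤ (‖∑ k, T m (h (t k))‖ + ‖R t‖) ^ 2 := by
      gcongr
      exact norm_add_le _ _
    have h5 : ‖∑ k, T m (h (t k)) + R t‖ ^ 2 ≤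
        5 / 4 * ‖∑ k, T m (h (t k))‖ ^ 2 + 5 * ‖R t‖ ^ 2 := by
      nlinarith [sq_nonneg (‖∑ k, T m (h (t k))‖ - 4 * ‖R t‖)]
    gcongr
    linarith
  have h6 := Av_mono (pw_nonneg hp0) hpt
  have hpw := pw_sum (q := q) hp
  have hns := Av_norm_sum_sq (q := q) hp (fun i => T m (h i))
  rw [Av_mul_left, Av_add, Av_mul_left, hns, Av_add, Av_const hpw, Av_mul_left] at h6
  have hPsq := Av_pairs_sq (q := q) hp0 hp fun i => ‖T m (h i)‖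
  have h7 : vv' q p m E η h ≤ 1 / (q : ℝ) ^ 2 * (5 / 4 * (q * vv p m h +
      (q * (q - 1) : ℝ) * ‖mu p m h‖ ^ 2) + (10 * D0 q c ^ 2 * ((q : ℝ) ^ 4 *
      (vv p m h) ^ 2) + 10 * ((q + 1) / c ^ 2) ^ 2 * η ^ 2)) := by
    refine h6.trans ?_
    have h8 := mul_le_mul_of_nonneg_left hPsq (show 0 ≤ 10 * D0 q c ^ 2 by positivity)
    have h9 : 0 ≤ 1 / (q : ℝ) ^ 2 := by positivity
    refine mul_le_mul_of_nonneg_left ?_ h9
    refine add_le_add le_rfl ?_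
    exact add_le_add h8 le_rfl
  refine moment_real hq1 hD he0 ?_ ?_ h7
  · unfold K1
    have : 0 ≤ D0 q c * (q : ℝ) ^ 2 + 1 := by positivity
    linarith
  · unfold K2
    linarith

/-- First moment after one step of the recursion. -/
lemma Root.moment_one (hr : Root q E m) {c : ℝ} (hc : 0 < c) (hcm : c ≤ m.im)
    (hp0 : ∀ i, 0 ≤ p i) (hp : ∑ i, p i = 1) {h : ι → ℂ} (hh : ∀ i, 0 ≤ (h i).im)
    {η : ℝ} (hη : 0 < η) :
    ‖mu' q p m E η h - (q : ℂ) * m ^ 2 * mu p m h‖ ≤ K1 q c * vv p m h + K2 q c * η := by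
  have hq1 : (1 : ℝ) ≤ q := by exact_mod_cast hr.qpos
  have hq0 : (0 : ℝ) < q := by linarith
  have hD := D0_nonneg (q := q) hc
  obtain ⟨R, hR1, hR2⟩ := hr.exists_rem hc hcm hh hη
  have he0 : (0 : ℝ) ≤ (q + 1) / c ^ 2 := by positivity
  have hm2 : ‖m‖ ^ 2 = 1 / q := by
    have := hr.norm_sq
    field_simp
    linarith
  have hPav := Av_pairs (q := q) hp fun i => ‖T m (h i)‖
  have hv1 : (Av p fun i => ‖T m (h i)‖) ^ 2 ≤ vv p m h := sq_Av_le hp0 hp _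
  have hv0 : 0 ≤ vv p m h := vv_nonneg hp0 h
  have hPav' : Av (pw q p) (fun t => (∑ k, ‖T m (h (t k))‖) ^ 2 - ∑ k, ‖T m (h (t k))‖ ^ 2) ≤
      (q : ℝ) ^ 2 * vv p m h := by
    rw [hPav]
    have h1 : (q : ℝ) * (q - 1) ≤ (q : ℝ) ^ 2 := by nlinarith
    have h2 : 0 ≤ (q : ℝ) * (q - 1) := by
      apply mul_nonneg hq0.le; linarith
    calc (q * (q - 1) : ℝ) * (Av p fun i => ‖T m (h i)‖) ^ 2
        ≤ (q * (q - 1) : ℝ) * vv p m h := by gcongr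
      _ ≤ (q : ℝ) ^ 2 * vv p m h := by gcongr
  have h1 : mu' q p m E η h = m ^ 2 * ((q : ℂ) * mu p m h + AvC (pw q p) R) := by
    unfold mu'
    have : (fun t : Fin q → ι => T m (recf E η h t)) =
        fun t => m ^ 2 * (∑ k, T m (h (t k)) + R t) := by
      funext t
      exact hR1 t
    rw [this, AvC_mul_left, AvC_add, AvC_sum]
    congr 2
    rw [sum_congr rfl (fun k _ => AvC_coord hp k (fun i => T m (h i))), sum_const, card_univ,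
      Fintype.card_fin, nsmul_eq_mul]
    rfl
  have h2 : mu' q p m E η h - (q : ℂ) * m ^ 2 * mu p m h = m ^ 2 * AvC (pw q p) R := by
    rw [h1]; ring
  rw [h2, norm_mul, norm_pow]
  have h3 : ‖m‖ ^ 2 ≤ 1 := by
    rw [hm2, div_le_one hq0]
    exact hq1
  have h4 : ‖AvC (pw q p) R‖ ≤ D0 q c * (q ^ 2 * vv p m h) + (q + 1) / c ^ 2 * η := by
    refine (norm_AvC_le (pw_nonneg hp0) R).trans ?_
    refine (Av_mono (pw_nonneg hp0) hR2).trans ?_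
    rw [Av_add, Av_mul_left, Av_const (pw_sum hp)]
    exact add_le_add (mul_le_mul_of_nonneg_left hPav' hD) le_rfl
  have h5 : 0 ≤ ‖AvC (pw q p) R‖ := norm_nonneg _
  have h6 : ‖m‖ ^ 2 * ‖AvC (pw q p) R‖ ≤ ‖AvC (pw q p) R‖ := by
    calc ‖m‖ ^ 2 * ‖AvC (pw q p) R‖ ≤ 1 * ‖AvC (pw q p) R‖ := by gcongr
      _ = _ := one_mul _
  refine h6.trans (h4.trans ?_)
  have t5 : D0 q c * (q ^ 2 * vv p m h) ≤ K1 q c * vv p m h := by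
    have h7 : D0 q c * (q : ℝ) ^ 2 ≤ K1 q c := by
      unfold K1
      have : 0 ≤ 10 * D0 q c ^ 2 * (q : ℝ) ^ 4 := by positivity
      linarith
    calc D0 q c * (q ^ 2 * vv p m h) = (D0 q c * (q : ℝ) ^ 2) * vv p m h := by ring
      _ ≤ K1 q c * vv p m h := by gcongr
  have t6 : (q + 1) / c ^ 2 * η ≤ K2 q c * η := by
    have h7 : ((q : ℝ) + 1) / c ^ 2 ≤ K2 q c := by
      unfold K2
      have : 0 ≤ 10 * (((q : ℝ) + 1) / c ^ 2) ^ 2 := by positivity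
      linarith
    gcongr
  linarith

/-- The gap threshold. -/
noncomputable def eps0 (q : ℕ) (c : ℝ) : ℝ := 1 / (8 * (K1 q c + K1 q c ^ 2 / c ^ 2))

/-- The constant of the gap lemma. -/
noncomputable def C0 (q : ℕ) (c : ℝ) : ℝ := 4 + 4 * (1 / c ^ 2) + 4 * (K2 q c + K2 q c ^ 2 / c ^ 2)

lemma eps0_pos {q : ℕ} {c : ℝ} (hc : 0 < c) : 0 < eps0 q c := by
  unfold eps0
  have := K1_pos (q := q) hc
  positivity

lemma C0_pos {q : ℕ} {c : ℝ} (hc : 0 < c) : 0 < C0 q c := by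
  unfold C0
  have := K2_pos (q := q) hc
  positivity

/-- The real inequality behind the gap lemma. -/
lemma gap_real {v v' M δ A B c η q : ℝ} (hv0 : 0 ≤ v) (hA : 0 < A) (hB : 0 < B) (hc : 0 < c)
    (hq : 2 ≤ q) (hδ : 0 ≤ δ) (hM0 : 0 ≤ M)
    (h1 : v' ≤ 5 / 4 * (v / q + M ^ 2) + A * v ^ 2 + B * η ^ 2)
    (h3 : 2 * c * M ≤ δ + (A * v + B * η))
    (hv : v ≤ 1 / (8 * (A + A ^ 2 / c ^ 2))) :
    v ≤ (4 + 4 * (1 / c ^ 2) + 4 * (B + B ^ 2 / c ^ 2)) * (|v - v'| + δ ^ 2 + η ^ 2) := by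
  have h7 : M ^ 2 ≤ 3 / (4 * c ^ 2) * (δ ^ 2 + A ^ 2 * v ^ 2 + B ^ 2 * η ^ 2) := by
    have h8 : (2 * c * M) ^ 2 ≤ (δ + (A * v + B * η)) ^ 2 := by
      gcongr
    have h9 : (δ + (A * v + B * η)) ^ 2 ≤ 3 * (δ ^ 2 + A ^ 2 * v ^ 2 + B ^ 2 * η ^ 2) := by
      nlinarith [sq_nonneg (δ - A * v), sq_nonneg (δ - B * η), sq_nonneg (A * v - B * η)]
    have h10 : 4 * c ^ 2 * M ^ 2 ≤ 3 * (δ ^ 2 + A ^ 2 * v ^ 2 + B ^ 2 * η ^ 2) := by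
      calc 4 * c ^ 2 * M ^ 2 = (2 * c * M) ^ 2 := by ring
        _ ≤ _ := h8.trans h9
    rw [div_mul_eq_mul_div, le_div_iff₀ (by positivity)]
    linarith
  have h11 : v / q ≤ v / 2 := by gcongr
  have h12 : v ≤ |v - v'| + v' := by
    have := le_abs_self (v - v')
    linarith
  have hc2 : 0 < c ^ 2 := by positivity
  have h13 : 3 / 8 * v ≤ |v - v'| + 1 / c ^ 2 * δ ^ 2 + (A + A ^ 2 / c ^ 2) * v ^ 2 +
      (B + B ^ 2 / c ^ 2) * η ^ 2 := by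
    have h14 : 5 / 4 * M ^ 2 ≤ 1 / c ^ 2 * δ ^ 2 + A ^ 2 / c ^ 2 * v ^ 2 +
        B ^ 2 / c ^ 2 * η ^ 2 := by
      have e1 : 3 / (4 * c ^ 2) * (δ ^ 2 + A ^ 2 * v ^ 2 + B ^ 2 * η ^ 2) =
        3 / 4 * (1 / c ^ 2 * δ ^ 2 + A ^ 2 / c ^ 2 * v ^ 2 + B ^ 2 / c ^ 2 * η ^ 2) := by
        field_simp
      rw [e1] at h7
      have h15 : 0 ≤ 1 / c ^ 2 * δ ^ 2 + A ^ 2 / c ^ 2 * v ^ 2 + B ^ 2 / c ^ 2 * η ^ 2 := by
        positivity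
      linarith
    have e2 : (A + A ^ 2 / c ^ 2) * v ^ 2 = A * v ^ 2 + A ^ 2 / c ^ 2 * v ^ 2 := by ring
    have e3 : (B + B ^ 2 / c ^ 2) * η ^ 2 = B * η ^ 2 + B ^ 2 / c ^ 2 * η ^ 2 := by ring
    rw [e2, e3]
    linarith
  have h16 : (A + A ^ 2 / c ^ 2) * v ^ 2 ≤ 1 / 8 * v := by
    have h17 : 0 < A + A ^ 2 / c ^ 2 := by positivity
    have h18 : (A + A ^ 2 / c ^ 2) * v ≤ 1 / 8 := by
      rw [le_div_iff₀ (by positivity)] at hv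
      linarith
    calc (A + A ^ 2 / c ^ 2) * v ^ 2 = ((A + A ^ 2 / c ^ 2) * v) * v := by ring
      _ ≤ 1 / 8 * v := by gcongr
  have h19 : v ≤ 4 * (|v - v'| + 1 / c ^ 2 * δ ^ 2 + (B + B ^ 2 / c ^ 2) * η ^ 2) := by
    linarith
  refine h19.trans ?_
  have hx : 0 ≤ |v - v'| := abs_nonneg _
  have hy : 0 ≤ 1 / c ^ 2 := by positivity
  have hz : 0 ≤ B + B ^ 2 / c ^ 2 := by positivity
  have u1 : 0 ≤ (4 * (1 / c ^ 2) + 4 * (B + B ^ 2 / c ^ 2)) * |v - v'| := by positivity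
  have u2 : 0 ≤ (4 + 4 * (B + B ^ 2 / c ^ 2)) * δ ^ 2 := by positivity
  have u3 : 0 ≤ (4 + 4 * (1 / c ^ 2)) * η ^ 2 := by positivity
  linarith

/-- **Gap lemma.** -/
theorem Root.gap (hr : Root q E m) (hq : 2 ≤ q) {c : ℝ} (hc : 0 < c) (hcm : c ≤ m.im)
    (hp0 : ∀ i, 0 ≤ p i) (hp : ∑ i, p i = 1) {h : ι → ℂ} (hh : ∀ i, 0 ≤ (h i).im)
    {η : ℝ} (hη : 0 < η) (hv : vv p m h ≤ eps0 q c) :
    vv p m h ≤ C0 q c * (|vv p m h - vv' q p m E η h| +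
      ‖mu p m h - mu' q p m E η h‖ ^ 2 + η ^ 2) := by
  have h1 := hr.moment_two hc hcm hp0 hp hh hη
  have h2 := hr.moment_one hc hcm hp0 hp hh hη
  have hq' : (2 : ℝ) ≤ q := by exact_mod_cast hq
  have h3 : 2 * c * ‖mu p m h‖ ≤ ‖mu p m h - mu' q p m E η h‖ +
      (K1 q c * vv p m h + K2 q c * η) := by
    have h4 : (1 - (q : ℂ) * m ^ 2) * mu p m h = (mu p m h - mu' q p m E η h) +
      (mu' q p m E η h - (q : ℂ) * m ^ 2 * mu p m h) := by ring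
    have h5 : ‖(1 - (q : ℂ) * m ^ 2) * mu p m h‖ ≤ ‖mu p m h - mu' q p m E η h‖ +
        (K1 q c * vv p m h + K2 q c * η) := by
      rw [h4]
      exact (norm_add_le _ _).trans (add_le_add le_rfl h2)
    rw [norm_mul] at h5
    have h6 := hr.one_sub
    have h7 : 2 * c ≤ ‖1 - (q : ℂ) * m ^ 2‖ := by linarith
    exact le_trans (mul_le_mul_of_nonneg_right h7 (norm_nonneg _)) h5
  exact gap_real (vv_nonneg hp0 h) (K1_pos hc) (K2_pos hc) hc hq' (norm_nonneg _)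
    (norm_nonneg _) h1 h3 hv

end

end P156.Gap
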