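import Vale.Agent.P156.H992.GapThm

/-!
P156, part C9: the induction over scales, pointwise (deterministic) form.
-/

namespace P156.Gap

open Complex Finset

/-- Stability of `T` under the Pick type bound `‖h - h'‖² ≤ δ² Im h Im h'`. -/
lemma Root.T_pick {q : ℕ} {E : ℝ} {m : ℂ} (hr : Root q E m) {c : ℝ} (hc : 0 < c)
    (hcm : c ≤ m.im) {w w' : ℂ} (hw : 0 ≤ w.im) (hw' : 0 ≤ w'.im) {δ : ℝ} (hδ : 0 ≤ δ)
    (hpick : ‖w - w'‖ ^ 2 ≤ δ ^ 2 * (w.im * w'.im)) :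
    ‖T m w - T m w'‖ ≤ (q + 1) / (4 * c) * δ := by
  have hq : (1 : ℝ) ≤ q := by exact_mod_cast hr.qpos
  have h1 : w.im + c ≤ ‖w - m⁻¹‖ := by
    refine le_trans ?_ hr.le_norm_sub_inv
    nlinarith
  have h1' : w'.im + c ≤ ‖w' - m⁻¹‖ := by
    refine le_trans ?_ hr.le_norm_sub_inv
    nlinarith
  rw [hr.T_sub hw hw', norm_div, norm_mul, norm_mul]
  have hp : 0 < w.im + c := by linarith
  have hp' : 0 < w'.im + c := by linarith
  have hden : (w.im + c) * (w'.im + c) ≤ ‖w - m⁻¹‖ * ‖w' - m⁻¹‖ := by gcongr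
  have hden0 : 0 < (w.im + c) * (w'.im + c) := by positivity
  have hsq : (4 * c * ‖w - w'‖) ^ 2 ≤ (δ * ((w.im + c) * (w'.im + c))) ^ 2 := by
    have e1 : 4 * c * w.im ≤ (w.im + c) ^ 2 := by nlinarith [sq_nonneg (w.im - c)]
    have e2 : 4 * c * w'.im ≤ (w'.im + c) ^ 2 := by nlinarith [sq_nonneg (w'.im - c)]
    have e3 : (4 * c * w.im) * (4 * c * w'.im) ≤ (w.im + c) ^ 2 * (w'.im + c) ^ 2 :=
      mul_le_mul e1 e2 (by positivity) (by positivity)
    calc (4 * c * ‖w - w'‖) ^ 2 = 16 * c ^ 2 * ‖w - w'‖ ^ 2 := by ring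
      _ ≤ 16 * c ^ 2 * (δ ^ 2 * (w.im * w'.im)) := by gcongr
      _ = δ ^ 2 * ((4 * c * w.im) * (4 * c * w'.im)) := by ring
      _ ≤ δ ^ 2 * ((w.im + c) ^ 2 * (w'.im + c) ^ 2) := by gcongr
      _ = (δ * ((w.im + c) * (w'.im + c))) ^ 2 := by ring
  have hle : 4 * c * ‖w - w'‖ ≤ δ * ((w.im + c) * (w'.im + c)) :=
    le_of_sq_le_sq hsq (by positivity)
  rw [div_le_iff₀ (by linarith)]
  calc ‖m - m⁻¹‖ * ‖w - w'‖ ≤ (q + 1) * ‖w - w'‖ := by
        gcongr
        exact hr.kappa_norm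
    _ = (q + 1) / (4 * c) * (4 * c * ‖w - w'‖) := by field_simp
    _ ≤ (q + 1) / (4 * c) * (δ * ((w.im + c) * (w'.im + c))) := by gcongr
    _ = (q + 1) / (4 * c) * δ * ((w.im + c) * (w'.im + c)) := by ring
    _ ≤ (q + 1) / (4 * c) * δ * (‖w - m⁻¹‖ * ‖w' - m⁻¹‖) := by gcongr

/-- The bound of `‖T‖`. -/
noncomputable def BT (q : ℕ) (c : ℝ) : ℝ := 1 + (q + 1) / c

lemma BT_pos {q : ℕ} {c : ℝ} (hc : 0 < c) : 0 < BT q c := by
  unfold BT
  positivity

lemma Root.T_le_BT {q : ℕ} {E : ℝ} {m : ℂ} (hr : Root q E m) {c : ℝ} (hc : 0 < c)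
    (hcm : c ≤ m.im) {w : ℂ} (hw : 0 ≤ w.im) : ‖T m w‖ ≤ BT q c := by
  refine (hr.T_bound hw).trans ?_
  unfold BT
  gcongr

/-- Lipschitz constant of `v` in the Pick distance. -/
noncomputable def LT (q : ℕ) (c : ℝ) : ℝ := 2 * BT q c * ((q + 1) / (4 * c))

lemma LT_pos {q : ℕ} {c : ℝ} (hc : 0 < c) : 0 < LT q c := by
  unfold LT
  have := BT_pos (q := q) hc
  positivity

section

variable {ι : Type*} [Fintype ι] {q : ℕ} {p : ι → ℝ} {E : ℝ} {m : ℂ}

lemma Root.vv_le (hr : Root q E m) {c : ℝ} (hc : 0 < c) (hcm : c ≤ m.im)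
    (hp0 : ∀ i, 0 ≤ p i) (hp : ∑ i, p i = 1) {h : ι → ℂ} (hh : ∀ i, 0 ≤ (h i).im) :
    vv p m h ≤ BT q c ^ 2 := by
  refine Av_le_const hp0 hp fun i => ?_
  have := hr.T_le_BT hc hcm (hh i)
  gcongr

lemma Root.vv_pick (hr : Root q E m) {c : ℝ} (hc : 0 < c) (hcm : c ≤ m.im)
    (hp0 : ∀ i, 0 ≤ p i) (hp : ∑ i, p i = 1) {h h' : ι → ℂ} (hh : ∀ i, 0 ≤ (h i).im)
    (hh' : ∀ i, 0 ≤ (h' i).im) {δ : ℝ} (hδ : 0 ≤ δ)
    (hpick : ∀ i, ‖h i - h' i‖ ^ 2 ≤ δ ^ 2 * ((h i).im * (h' i).im)) :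
    |vv p m h - vv p m h'| ≤ LT q c * δ := by
  unfold vv
  rw [← Av_sub]
  refine (abs_Av_le hp0 _).trans ?_
  refine Av_le_const hp0 hp fun i => ?_
  have h1 := hr.T_pick hc hcm (hh i) (hh' i) hδ (hpick i)
  have h2 := hr.T_le_BT hc hcm (hh i)
  have h3 := hr.T_le_BT hc hcm (hh' i)
  have e : ‖T m (h i)‖ ^ 2 - ‖T m (h' i)‖ ^ 2 =
      (‖T m (h i)‖ + ‖T m (h' i)‖) * (‖T m (h i)‖ - ‖T m (h' i)‖) := by ring
  rw [e, abs_mul, abs_of_nonneg (by positivity)]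
  have h4 : |‖T m (h i)‖ - ‖T m (h' i)‖| ≤ ‖T m (h i) - T m (h' i)‖ := abs_norm_sub_norm_le _ _
  calc (‖T m (h i)‖ + ‖T m (h' i)‖) * |‖T m (h i)‖ - ‖T m (h' i)‖|
      ≤ (BT q c + BT q c) * ((q + 1) / (4 * c) * δ) :=
        mul_le_mul (add_le_add h2 h3) (h4.trans h1) (abs_nonneg _)
          (by linarith [BT_pos (q := q) hc])
    _ = LT q c * δ := by
        unfold LT; ring

end

/-- Abstract induction over scales. -/
lemma scales_real {J : ℕ} {v a b η : ℕ → ℝ} {ε C M : ℝ} (hε : 0 < ε) (hC : 0 < C)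
    (hv0 : ∀ j, 0 ≤ v j) (ha : ∀ j, 0 ≤ a j) (hvM : v J ≤ M) (hM : 0 ≤ M)
    (hη : ∀ j ≤ J, C * η j ^ 2 ≤ ε / 4)
    (gap : ∀ j ≤ J, v j ≤ ε → v j ≤ C * (a j + b j ^ 2 + η j ^ 2))
    (cont : ∀ j < J, |v (j + 1) - v j| ≤ ε / 4) :
    v J ≤ C * (a J + b J ^ 2 + η J ^ 2) +
      M * (v 0 / ε + ((4 * C / ε) ^ 2 + 4 * C / ε) * ∑ j ∈ range J, (a j ^ 2 + b j ^ 2)) := by
  have hS : 0 ≤ ∑ j ∈ range J, (a j ^ 2 + b j ^ 2) := sum_nonneg fun j _ => by positivity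
  have hK : 0 ≤ (4 * C / ε) ^ 2 + 4 * C / ε := by positivity
  have hrest : 0 ≤ M * (v 0 / ε + ((4 * C / ε) ^ 2 + 4 * C / ε) *
      ∑ j ∈ range J, (a j ^ 2 + b j ^ 2)) := by
    have := hv0 0
    positivity
  have hfirst : 0 ≤ C * (a J + b J ^ 2 + η J ^ 2) := by
    have := ha J
    positivity
  by_cases hJ : v J ≤ ε
  · have := gap J le_rfl hJ
    linarith
  · push Not at hJ
    have hex : ∃ j, ε < v j := ⟨J, hJ⟩
    classical
    set j := Nat.find hex with hj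
    have hjJ : j ≤ J := Nat.find_min' hex hJ
    have hjv : ε < v j := Nat.find_spec hex
    have hone : 1 ≤ v 0 / ε + ((4 * C / ε) ^ 2 + 4 * C / ε) *
        ∑ j ∈ range J, (a j ^ 2 + b j ^ 2) := by
      rcases Nat.eq_zero_or_pos j with h0 | h0
      · rw [h0] at hjv
        have : 1 ≤ v 0 / ε := by
          rw [le_div_iff₀ hε]; linarith
        have : 0 ≤ ((4 * C / ε) ^ 2 + 4 * C / ε) * ∑ j ∈ range J, (a j ^ 2 + b j ^ 2) := by
          positivity
        linarith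
      · obtain ⟨i, hi⟩ : ∃ i, j = i + 1 := ⟨j - 1, by omega⟩
        have hiJ : i < J := by omega
        have hiv : v i ≤ ε := by
          by_contra hcon
          push Not at hcon
          have := Nat.find_min' hex hcon
          omega
        have hgap := gap i hiJ.le hiv
        have hcont := cont i hiJ
        rw [← hi] at hcont
        have h1 := (abs_le.mp hcont).2
        have h2 := hη i hiJ.le
        have h3 : ε / 2 < C * (a i + b i ^ 2) := by nlinarith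
        have h4 : 1 ≤ ((4 * C / ε) ^ 2 + 4 * C / ε) * (a i ^ 2 + b i ^ 2) := by
          have hai := ha i
          by_cases h5 : ε / 4 ≤ C * a i
          · have h6 : 1 ≤ 4 * C / ε * a i := by
              rw [div_mul_eq_mul_div, le_div_iff₀ hε]; linarith
            have h7 : 1 ≤ (4 * C / ε * a i) ^ 2 := one_le_pow₀ h6
            have h8 : (4 * C / ε * a i) ^ 2 = (4 * C / ε) ^ 2 * a i ^ 2 := by ring
            have h9 : 0 ≤ (4 * C / ε) ^ 2 * b i ^ 2 + 4 * C / ε * (a i ^ 2 + b i ^ 2) := by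
              positivity
            nlinarith
          · push Not at h5
            have h6 : 1 ≤ 4 * C / ε * b i ^ 2 := by
              rw [div_mul_eq_mul_div, le_div_iff₀ hε]; nlinarith
            have h9 : 0 ≤ (4 * C / ε) ^ 2 * (a i ^ 2 + b i ^ 2) + 4 * C / ε * a i ^ 2 := by
              positivity
            nlinarith
        have h5 : a i ^ 2 + b i ^ 2 ≤ ∑ j ∈ range J, (a j ^ 2 + b j ^ 2) :=
          single_le_sum (f := fun j => a j ^ 2 + b j ^ 2) (fun j _ => by positivity)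
            (mem_range.mpr hiJ)
        have h6 : 0 ≤ v 0 / ε := div_nonneg (hv0 0) hε.le
        have h7 := mul_le_mul_of_nonneg_left h5 hK
        linarith
    have : M ≤ M * (v 0 / ε + ((4 * C / ε) ^ 2 + 4 * C / ε) *
        ∑ j ∈ range J, (a j ^ 2 + b j ^ 2)) := by
      have := mul_le_mul_of_nonneg_left hone hM
      linarith
    linarith

/-- The largest admissible Pick distance between consecutive scales. -/
noncomputable def deltaStar (q : ℕ) (c : ℝ) : ℝ := eps0 q c / (4 * LT q c)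

lemma deltaStar_pos {q : ℕ} {c : ℝ} (hc : 0 < c) : 0 < deltaStar q c := by
  unfold deltaStar
  have := eps0_pos (q := q) hc
  have := LT_pos (q := q) hc
  positivity

/-- The largest admissible initial scale. -/
noncomputable def etaStar (q : ℕ) (c : ℝ) : ℝ := Real.sqrt (eps0 q c / (4 * C0 q c))

lemma etaStar_pos {q : ℕ} {c : ℝ} (hc : 0 < c) : 0 < etaStar q c := by
  unfold etaStar
  have := eps0_pos (q := q) hc
  have := C0_pos (q := q) hc
  positivity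

/-- The constant in front of the sum over scales. -/
noncomputable def C9 (q : ℕ) (c : ℝ) : ℝ :=
  C0 q c + BT q c ^ 2 * (1 / eps0 q c + (4 * C0 q c / eps0 q c) ^ 2 + 4 * C0 q c / eps0 q c)

lemma C9_pos {q : ℕ} {c : ℝ} (hc : 0 < c) : 0 < C9 q c := by
  unfold C9
  have := eps0_pos (q := q) hc
  have := C0_pos (q := q) hc
  have := BT_pos (q := q) hc
  positivity

/-- **Induction over scales**, pointwise form (general Pick distances). -/
theorem Root.scales {ι : Type*} [Fintype ι] {q : ℕ} {p : ι → ℝ} {E : ℝ} {m : ℂ}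
    (hr : Root q E m) (hq : 2 ≤ q) {c : ℝ} (hc : 0 < c) (hcm : c ≤ m.im)
    (hp0 : ∀ i, 0 ≤ p i) (hp : ∑ i, p i = 1) {J : ℕ} {h : ℕ → ι → ℂ} {η : ℕ → ℝ}
    (him : ∀ j, j ≤ J → ∀ i, 0 ≤ (h j i).im)
    (hηpos : ∀ j, j ≤ J → 0 < η j) (hηle : ∀ j, j ≤ J → η j ≤ etaStar q c)
    (hpick : ∀ j, j < J → ∀ i, ‖h (j + 1) i - h j i‖ ^ 2 ≤
      deltaStar q c ^ 2 * ((h (j + 1) i).im * (h j i).im)) :
    vv p m (h J) ≤ C9 q c * (|vv p m (h J) - vv' q p m E (η J) (h J)| +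
        ‖mu p m (h J) - mu' q p m E (η J) (h J)‖ ^ 2 + η J ^ 2) +
      C9 q c * (vv p m (h 0) + ∑ j ∈ range J,
        (|vv p m (h j) - vv' q p m E (η j) (h j)| ^ 2 +
          ‖mu p m (h j) - mu' q p m E (η j) (h j)‖ ^ 2)) := by
  have hε := eps0_pos (q := q) hc
  have hC := C0_pos (q := q) hc
  have hB := BT_pos (q := q) hc
  have hL := LT_pos (q := q) hc
  have key := scales_real (J := J) (v := fun j => vv p m (h j))
    (a := fun j => |vv p m (h j) - vv' q p m E (η j) (h j)|)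
    (b := fun j => ‖mu p m (h j) - mu' q p m E (η j) (h j)‖) (η := η)
    (ε := eps0 q c) (C := C0 q c) (M := BT q c ^ 2) hε hC
    (fun j => vv_nonneg hp0 _) (fun j => abs_nonneg _)
    (hr.vv_le hc hcm hp0 hp (him J le_rfl)) (by positivity)
    (by
      intro j hj
      have h1 := hηle j hj
      have h2 := hηpos j hj
      have h3 : η j ^ 2 ≤ etaStar q c ^ 2 := by gcongr
      have h4 : etaStar q c ^ 2 = eps0 q c / (4 * C0 q c) := by
        unfold etaStar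
        exact Real.sq_sqrt (by positivity)
      rw [h4] at h3
      calc C0 q c * η j ^ 2 ≤ C0 q c * (eps0 q c / (4 * C0 q c)) := by gcongr
        _ = eps0 q c / 4 := by field_simp)
    (by
      intro j hj hv
      exact hr.gap hq hc hcm hp0 hp (him j hj) (hηpos j hj) hv)
    (by
      intro j hj
      have h1 := hr.vv_pick hc hcm hp0 hp (him (j + 1) hj) (him j hj.le)
        (deltaStar_pos (q := q) hc).le (hpick j hj)
      refine h1.trans (le_of_eq ?_)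
      unfold deltaStar
      field_simp)
  refine key.trans ?_
  have hS : 0 ≤ ∑ j ∈ range J, (|vv p m (h j) - vv' q p m E (η j) (h j)| ^ 2 +
      ‖mu p m (h j) - mu' q p m E (η j) (h j)‖ ^ 2) := sum_nonneg fun j _ => by positivity
  have hv0 : 0 ≤ vv p m (h 0) := vv_nonneg hp0 _
  have hA : 0 ≤ |vv p m (h J) - vv' q p m E (η J) (h J)| +
      ‖mu p m (h J) - mu' q p m E (η J) (h J)‖ ^ 2 + η J ^ 2 := by positivity
  generalize |vv p m (h J) - vv' q p m E (η J) (h J)| +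
      ‖mu p m (h J) - mu' q p m E (η J) (h J)‖ ^ 2 + η J ^ 2 = A at hA ⊢
  generalize ∑ j ∈ range J, (|vv p m (h j) - vv' q p m E (η j) (h j)| ^ 2 +
      ‖mu p m (h j) - mu' q p m E (η j) (h j)‖ ^ 2) = S at hS ⊢
  generalize vv p m (h 0) = v at hv0 ⊢
  have e9 : C9 q c = C0 q c + BT q c ^ 2 * (1 / eps0 q c + (4 * C0 q c / eps0 q c) ^ 2 +
    4 * C0 q c / eps0 q c) := rfl
  have hB2 : 0 ≤ BT q c ^ 2 := by positivity
  generalize C9 q c = c9 at e9 ⊢
  generalize BT q c ^ 2 = B2 at e9 hB2 ⊢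
  generalize C0 q c = C at e9 hC ⊢
  generalize eps0 q c = ε at e9 hε ⊢
  have hK : 0 ≤ (4 * C / ε) ^ 2 + 4 * C / ε := by positivity
  have h1 : C ≤ c9 := by
    rw [e9]
    have : 0 ≤ B2 * (1 / ε + (4 * C / ε) ^ 2 + 4 * C / ε) := by positivity
    linarith
  have h2 : B2 * (1 / ε) ≤ c9 := by
    rw [e9]
    have : 0 ≤ B2 * ((4 * C / ε) ^ 2 + 4 * C / ε) := by positivity
    linarith
  have h3 : B2 * ((4 * C / ε) ^ 2 + 4 * C / ε) ≤ c9 := by
    rw [e9]
    have : 0 ≤ B2 * (1 / ε) := by positivity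
    linarith
  have t1 : C * A ≤ c9 * A := by gcongr
  have t2 : B2 * (1 / ε) * v ≤ c9 * v := by gcongr
  have t3 : B2 * ((4 * C / ε) ^ 2 + 4 * C / ε) * S ≤ c9 * S := by gcongr
  calc C * A + B2 * (v / ε + ((4 * C / ε) ^ 2 + 4 * C / ε) * S)
      = C * A + B2 * (1 / ε) * v + B2 * ((4 * C / ε) ^ 2 + 4 * C / ε) * S := by ring
    _ ≤ c9 * A + c9 * v + c9 * S := by linarith
    _ = c9 * A + c9 * (v + S) := by ring

end P156.Gap
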